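import Vale.Agent.P146.H326.J1

/-!
Crude bounds for the traces of products of three positive semidefinite matrices `A`, `B`
(two positions) and `D` (base matrix), with `tr (D A)` and `tr (D B)` kept: no locking used.
-/

open Matrix Vale.Agent.P146.H332 Vale.Agent.P146.H522 Vale.Agent.P146.H633
open Vale.Agent.P146.H326.J1

namespace Vale.Agent.P146.H698.Cw

set_option linter.unusedSectionVars false
set_option linter.unusedDecidableInType false

variable {m : Type} [Fintype m] [DecidableEq m]

lemma nf_nn (C : Matrix m m ℝ) : 0 ≤ nf C := by unfold nf; exact Real.sqrt_nonneg _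

/-- `tr (Y C) ≤ |C| tr Y` -/
lemma tr_le_nf {Y C : Matrix m m ℝ} (hY : Y.PosSemidef) (hC : C.PosSemidef) :
    (Y * C).trace ≤ nf C * Y.trace := by
  have hp : (nf C • (1 : Matrix m m ℝ) - C).PosSemidef := by
    refine Matrix.PosSemidef.of_dotProduct_mulVec_nonneg ?_ fun u => ?_
    · rw [Matrix.IsHermitian, Matrix.conjTranspose_eq_transpose_of_trivial, transpose_sub,
        transpose_smul, transpose_one, sym_of hC]
    · have h1 := qf_le_nf C u
      have h3 := (abs_le.1 h1).2
      have h4 : star u ⬝ᵥ ((nf C • (1 : Matrix m m ℝ) - C) *ᵥ u) =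
          nf C * ∑ i, u i ^ 2 - u ⬝ᵥ (C *ᵥ u) := by
        rw [star_trivial, sub_mulVec, smul_mulVec, one_mulVec, dotProduct_sub, dotProduct_smul,
          dot_self, smul_eq_mul]
      rw [h4]
      linarith
  have h5 := tr_nn hY hp
  rw [Matrix.mul_sub, Matrix.mul_smul, Matrix.mul_one, Matrix.trace_sub, Matrix.trace_smul,
    smul_eq_mul] at h5
  linarith

/-- `tr (D A B² A) ≤ |B|² |A| tr (D A)` -/
theorem tr_ABBA {A B D : Matrix m m ℝ} (hA : A.PosSemidef) (hB : B.PosSemidef)
    (hD : D.PosSemidef) :
    (D * (A * (B * B) * A)).trace ≤ nf B ^ 2 * (nf A * (D * A).trace) := by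
  have hAt : Aᵀ = A := sym_of hA
  have hY : (A * D * A).PosSemidef := by
    have := conj_psd (X := A) hD
    rwa [hAt] at this
  have e1 : (D * (A * (B * B) * A)).trace = (A * D * A * (B * B)).trace := by
    rw [show D * (A * (B * B) * A) = (D * A * (B * B)) * A by simp only [Matrix.mul_assoc],
      Matrix.trace_mul_comm]
    simp only [Matrix.mul_assoc]
  have h1 := tr_sq_le hY hB
  have h2 := tr_le_nf hY hB
  have e2 : (A * D * A).trace = (D * (A * A)).trace := by
    rw [Matrix.mul_assoc, Matrix.trace_mul_comm, Matrix.mul_assoc]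
  have h3 := tr_sq_le hD hA
  rw [e1]
  calc (A * D * A * (B * B)).trace ≤ nf B * (A * D * A * B).trace := h1
    _ ≤ nf B * (nf B * (A * D * A).trace) := mul_le_mul_of_nonneg_left h2 (nf_nn B)
    _ ≤ nf B * (nf B * (nf A * (D * A).trace)) := by
        rw [e2]
        exact mul_le_mul_of_nonneg_left (mul_le_mul_of_nonneg_left h3 (nf_nn B)) (nf_nn B)
    _ = nf B ^ 2 * (nf A * (D * A).trace) := by ring

/-- `tr (D A⁴) ≤ |A|³ tr (D A)` -/
theorem tr_AAAA {A D : Matrix m m ℝ} (hA : A.PosSemidef) (hD : D.PosSemidef) :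
    (D * (A * (A * A) * A)).trace ≤ nf A ^ 3 * (D * A).trace := by
  have h := tr_ABBA hA hA hD
  calc _ ≤ nf A ^ 2 * (nf A * (D * A).trace) := h
    _ = _ := by ring

/-- Cauchy-Schwarz: `2 |tr (A² B² D)| ≤ tr (D A⁴) + tr (D B⁴)` -/
theorem tr_cross {A B D : Matrix m m ℝ} (hA : A.PosSemidef) (hB : B.PosSemidef)
    (hD : D.PosSemidef) :
    |2 * (A * A * (B * B) * D).trace| ≤
      (D * (A * (A * A) * A)).trace + (D * (B * (B * B) * B)).trace := by
  have hAt : Aᵀ = A := sym_of hA
  have hBt : Bᵀ = B := sym_of hB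
  have hDt : Dᵀ = D := sym_of hD
  have key : ∀ s : ℝ, s ^ 2 = 1 →
      0 ≤ (D * (A * (A * A) * A)).trace + (D * (B * (B * B) * B)).trace +
        s * (2 * (A * A * (B * B) * D).trace) := by
    intro s hs
    have h := conj_psd (X := A * A + s • (B * B)) hD
    have h2 := h.trace_nonneg
    have ht : (A * A + s • (B * B))ᵀ = A * A + s • (B * B) := by
      rw [transpose_add, transpose_smul, transpose_mul, transpose_mul, hAt, hBt]
    rw [ht] at h2
    have e : (A * A + s • (B * B)) * D * (A * A + s • (B * B)) =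
        A * A * D * (A * A) + s • (A * A * D * (B * B)) + s • (B * B * D * (A * A)) +
          (s ^ 2) • (B * B * D * (B * B)) := by
      simp only [Matrix.add_mul, Matrix.mul_add, Matrix.smul_mul, Matrix.mul_smul, smul_add,
        smul_smul, sq]
      abel
    rw [e] at h2
    simp only [Matrix.trace_add, Matrix.trace_smul, smul_eq_mul] at h2
    rw [hs, one_mul] at h2
    have c1 : (A * A * D * (A * A)).trace = (D * (A * (A * A) * A)).trace := by
      rw [show A * A * D * (A * A) = (A * A) * (D * (A * A)) by simp only [Matrix.mul_assoc],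
        Matrix.trace_mul_comm]
      simp only [Matrix.mul_assoc]
    have c2 : (B * B * D * (B * B)).trace = (D * (B * (B * B) * B)).trace := by
      rw [show B * B * D * (B * B) = (B * B) * (D * (B * B)) by simp only [Matrix.mul_assoc],
        Matrix.trace_mul_comm]
      simp only [Matrix.mul_assoc]
    have c3 : (B * B * D * (A * A)).trace = (A * A * (B * B) * D).trace := by
      rw [Matrix.trace_mul_comm]
      simp only [Matrix.mul_assoc]
    have c4 : (A * A * D * (B * B)).trace = (A * A * (B * B) * D).trace := by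
      rw [← Matrix.trace_transpose (A * A * D * (B * B))]
      simp only [transpose_mul, hAt, hBt, hDt]
      rw [← c3]
      simp only [Matrix.mul_assoc]
    rw [c1, c2, c3, c4] at h2
    linarith
  have k1 := key 1 (by norm_num)
  have k2 := key (-1) (by norm_num)
  rw [abs_le]
  constructor <;> linarith

/-- The three base terms of the two-time identity, crude form:
`|tr (D A B² A) + tr (D B A² B) - 2 tr (A² B² D)|` is bounded by `tr (D A)`, `tr (D B)` times
cubes of norms. -/
theorem base_terms {A B D : Matrix m m ℝ} (hA : A.PosSemidef) (hB : B.PosSemidef)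
    (hD : D.PosSemidef) :
    |(D * (A * (B * B) * A)).trace + (D * (B * (A * A) * B)).trace -
        2 * (A * A * (B * B) * D).trace| ≤
      (nf A * nf B ^ 2 + nf A ^ 3) * (D * A).trace +
        (nf B * nf A ^ 2 + nf B ^ 3) * (D * B).trace := by
  have h1 := tr_ABBA hA hB hD
  have h2 := tr_ABBA hB hA hD
  have h3 := tr_AAAA hA hD
  have h4 := tr_AAAA hB hD
  have h5 := abs_le.1 (tr_cross hA hB hD)
  have n1 : 0 ≤ (D * (A * (B * B) * A)).trace := by
    have h := (conj_psd (X := A * B) (B := (1 : Matrix m m ℝ)) Matrix.PosSemidef.one)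
    have e : A * B * 1 * (A * B)ᵀ = A * (B * B) * A := by
      rw [transpose_mul, sym_of hA, sym_of hB, Matrix.mul_one]
      simp only [Matrix.mul_assoc]
    rw [e] at h
    exact tr_nn hD h
  have n2 : 0 ≤ (D * (B * (A * A) * B)).trace := by
    have h := (conj_psd (X := B * A) (B := (1 : Matrix m m ℝ)) Matrix.PosSemidef.one)
    have e : B * A * 1 * (B * A)ᵀ = B * (A * A) * B := by
      rw [transpose_mul, sym_of hA, sym_of hB, Matrix.mul_one]
      simp only [Matrix.mul_assoc]
    rw [e] at h
    exact tr_nn hD h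
  have n3 : 0 ≤ (D * A).trace := tr_nn hD hA
  have n4 : 0 ≤ (D * B).trace := tr_nn hD hB
  rw [abs_le]
  constructor
  · nlinarith [mul_nonneg (mul_nonneg (nf_nn A) (sq_nonneg (nf B))) n3,
      mul_nonneg (mul_nonneg (nf_nn B) (sq_nonneg (nf A))) n4]
  · nlinarith
end Vale.Agent.P146.H698.Cw
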