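import Vale.Agent.P146.H767.Prof2
import Vale.Agent.P146.H767.SA3

/-!
# P146: size of the gradient of the profile functional under a change of law

`G_l = FD F m' σ l - FD F m σ l`, `m' = m` except `m' 0 = m 0 + h`.  Then
`(h/2) σ₀² |∇ FD F m σ l|² ≤ G_l`, `Ax (exp (μ G_l)) ≤ exp (μ G_{l+1})` for `μ ≤ m l`, and by the
Gibbs variational principle every weight `q` of the position `l` with entropy `K` satisfies
`E q G_l ≤ E q_N G_N + (K - K_N)/μ`.
-/

open MeasureTheory ProbabilityTheory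

namespace Vale.Agent.P146.H698

open Vale.Agent.P157.Lv Vale.Agent.P146.H425
open Vale.Agent.P146.R1
open Vale.Agent.P146.H785 Vale.Agent.P146.H767

set_option linter.unusedSectionVars false

section gen

variable {κ : Type} [Fintype κ] {F U G q φ ψ : (κ → ℝ) → ℝ} {D : κ → (κ → ℝ) → ℝ}
  {B B' L x s c mu h : ℝ} {m m' m0 m1 σ : ℕ → ℝ} {N i l : ℕ}

/-! ### one layer -/

/-- Jensen for a power at most one. -/
lemma ax_pow (hU : LipB U B) (hB : 0 ≤ B) (hG : Bm G) (hmu : 0 < mu) (hx : mu ≤ x) {y : κ → ℝ}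
    (hc : Ax x s U (fun z => Real.exp (x * G z)) y ≤ Real.exp (x * c)) :
    Ax x s U (fun z => Real.exp (mu * G z)) y ≤ Real.exp (mu * c) := by
  have hx0 : 0 < x := hmu.trans_le hx
  have k3 : ∀ z, Real.exp (mu * G z) ≤
      Real.exp (mu * c) * (mu / x * (Real.exp (-(x * c)) * Real.exp (x * G z))) +
        Real.exp (mu * c) * (1 - mu / x) := by
    intro z
    have h1 := convexOn_exp.2 (Set.mem_univ (x * (G z - c))) (Set.mem_univ 0)
      (show 0 ≤ mu / x by positivity)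
      (show 0 ≤ 1 - mu / x by rw [sub_nonneg, div_le_one hx0]; exact hx) (by ring)
    simp only [smul_eq_mul, mul_zero, add_zero, Real.exp_zero, mul_one] at h1
    have e1 : mu / x * (x * (G z - c)) = mu * G z - mu * c := by
      field_simp
    rw [e1] at h1
    have h2 := mul_le_mul_of_nonneg_left h1 (Real.exp_pos (mu * c)).le
    rw [← Real.exp_add, add_sub_cancel] at h2
    refine h2.trans (le_of_eq ?_)
    rw [mul_add, ← Real.exp_add (-(x * c))]
    congr 4
    ring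
  have eg1 : EG fun z => Real.exp (mu * G z) := (Bm.exp (hG.const_mul mu)).eg
  have eg2 : EG fun z => Real.exp (x * G z) := (Bm.exp (hG.const_mul x)).eg
  have k4 := Ax_mono hU hB eg1
    ((((eg2.const_mul (Real.exp (-(x * c)))).const_mul (mu / x)).const_mul
      (Real.exp (mu * c))).add (EG.const (Real.exp (mu * c) * (1 - mu / x)))) k3 x s y
  rw [Ax_add hU hB (((eg2.const_mul (Real.exp (-(x * c)))).const_mul
    (mu / x)).const_mul (Real.exp (mu * c))) (EG.const _), Ax_const hU hB, Ax_const_mul,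
    Ax_const_mul, Ax_const_mul] at k4
  have k5 : Real.exp (-(x * c)) * Ax x s U (fun z => Real.exp (x * G z)) y ≤ 1 := by
    have := mul_le_mul_of_nonneg_left hc (Real.exp_pos (-(x * c))).le
    rwa [← Real.exp_add, neg_add_cancel, Real.exp_zero] at this
  have k6 : Real.exp (mu * c) * (mu / x * (Real.exp (-(x * c)) *
      Ax x s U (fun z => Real.exp (x * G z)) y)) ≤ Real.exp (mu * c) * (mu / x * 1) := by
    have h7 : 0 ≤ mu / x := by positivity
    exact mul_le_mul_of_nonneg_left (mul_le_mul_of_nonneg_left k5 h7) (Real.exp_pos _).le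
  linarith

/-- Bounded weights, bounded below. -/
def Qd (q : (κ → ℝ) → ℝ) : Prop := Bm q ∧ ∃ δ, 0 < δ ∧ ∀ y, δ ≤ q y

lemma Qd.pos (hq : Qd q) (y : κ → ℝ) : 0 < q y := by
  obtain ⟨-, δ, h0, h1⟩ := hq
  exact h0.trans_le (h1 y)

lemma Qd.ax (hU : LipB U B) (hB : 0 ≤ B) (hq : Qd q) (x s : ℝ) : Qd (Ax x s U q) := by
  obtain ⟨hb, δ, h0, h1⟩ := hq
  refine ⟨hb.Ax hU hB x s, δ, h0, fun y => ?_⟩
  have := Ax_mono hU hB (EG.const δ) hb.eg h1 x s y
  rwa [Ax_const hU hB] at this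

lemma bm_mul_log (hq : Qd q) : Bm fun z => q z * Real.log (q z) := by
  obtain ⟨⟨hm, C, hC⟩, δ, h0, h1⟩ := hq
  refine ⟨hm.mul (Real.measurable_log.comp hm), 1 + C ^ 2, fun y => ?_⟩
  have hy : 0 ≤ q y := (h0.trans_le (h1 y)).le
  refine (abs_mul_log_le hy).trans ?_
  have h2 : q y ≤ C := (le_abs_self _).trans (hC y)
  have := pow_le_pow_left₀ hy h2 2
  linarith

/-- **The Gibbs variational principle for one layer.** -/
theorem gibbs (hU : LipB U B) (hB : 0 ≤ B) (hq : Qd q) (hG : Bm G) {y : κ → ℝ}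
    (hE : Ax x s U (fun z => Real.exp (mu * G z)) y ≤ Real.exp (mu * c)) :
    mu * Ax x s U (fun z => q z * G z) y + Ax x s U q y * Real.log (Ax x s U q y) ≤
      mu * (Ax x s U q y * c) + Ax x s U (fun z => q z * Real.log (q z)) y := by
  have hp := (hq.ax hU hB x s).pos y
  set q1 := Ax x s U q y with hq1
  have hpt : ∀ z, mu * (q z * G z) + (Real.log q1 - mu * c + 1) * q z ≤
      q z * Real.log (q z) + q1 * Real.exp (-(mu * c)) * Real.exp (mu * G z) := by
    intro z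
    have h1 := H632.DV.young (hq.pos z).le (mu * G z - mu * c + Real.log q1)
    have e1 : Real.exp (mu * G z - mu * c + Real.log q1) =
        q1 * Real.exp (-(mu * c)) * Real.exp (mu * G z) := by
      rw [Real.exp_add, Real.exp_log hp, sub_eq_add_neg, Real.exp_add]
      ring
    rw [e1] at h1
    linarith
  have b1 : Bm fun z => mu * (q z * G z) := (hq.1.mul hG).const_mul mu
  have b2 : Bm fun z => (Real.log q1 - mu * c + 1) * q z := hq.1.const_mul _
  have b3 := bm_mul_log hq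
  have b4 : Bm fun z => q1 * Real.exp (-(mu * c)) * Real.exp (mu * G z) :=
    (Bm.exp (hG.const_mul mu)).const_mul _
  have h2 := Ax_mono hU hB (b1.add b2).eg (b3.add b4).eg hpt x s y
  rw [Ax_add hU hB b1.eg b2.eg, Ax_add hU hB b3.eg b4.eg, Ax_const_mul, Ax_const_mul,
    Ax_const_mul, ← hq1] at h2
  have h3 : q1 * Real.exp (-(mu * c)) * Ax x s U (fun z => Real.exp (mu * G z)) y ≤ q1 := by
    have h4 := mul_le_mul_of_nonneg_left hE (Real.exp_pos (-(mu * c))).le
    rw [← Real.exp_add, neg_add_cancel, Real.exp_zero] at h4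
    calc q1 * Real.exp (-(mu * c)) * Ax x s U (fun z => Real.exp (mu * G z)) y
        = q1 * (Real.exp (-(mu * c)) * Ax x s U (fun z => Real.exp (mu * G z)) y) := by ring
      _ ≤ q1 * 1 := mul_le_mul_of_nonneg_left h4 hp.le
      _ = q1 := mul_one _
  linarith

lemma qd_one : Qd fun _ : κ → ℝ => (1 : ℝ) := ⟨Bm.const 1, 1, one_pos, fun _ => le_rfl⟩

/-- Jensen -/
lemma ax_le (hU : LipB U B) (hB : 0 ≤ B) (hG : Bm G) (hmu : 0 < mu) {y : κ → ℝ}
    (hE : Ax x s U (fun z => Real.exp (mu * G z)) y ≤ Real.exp (mu * c)) :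
    Ax x s U G y ≤ c := by
  have h1 := gibbs hU hB qd_one hG hE
  rw [Ax_const hU hB] at h1
  simp only [one_mul, Real.log_one, mul_zero, add_zero] at h1
  rw [Ax_const hU hB, add_zero] at h1
  exact le_of_mul_le_mul_left h1 hmu

/-- entropy decreases -/
lemma ent_le (hU : LipB U B) (hB : 0 ≤ B) (hq : Qd q) (y : κ → ℝ) :
    Ax x s U q y * Real.log (Ax x s U q y) ≤ Ax x s U (fun z => q z * Real.log (q z)) y := by
  have h1 := gibbs (x := x) (s := s) (mu := 0) (c := 0) (y := y) hU hB hq (Bm.const 0) (by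
    simp only [zero_mul]
    rw [Real.exp_zero, Ax_const hU hB])
  linarith

/-! ### the increment -/

/-- The increment of the profile functional when the exponent of the layer `0` grows by `h`. -/
noncomputable def Gp (F : (κ → ℝ) → ℝ) (m σ : ℕ → ℝ) (h : ℝ) (l : ℕ) (y : κ → ℝ) : ℝ :=
  FD F (ups m 0 h) σ l y - FD F m σ l y

lemma ups_ne {j : ℕ} (hj : 0 < j) : ups m 0 h j = m j := by
  unfold ups
  exact Function.update_of_ne (by omega) _ _

lemma ups_zero : ups m 0 h 0 = m 0 + h := by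
  unfold ups
  exact Function.update_self _ _ _

lemma ups_pos (hm : ∀ j < i, 0 < m j) (hh : 0 ≤ h) : ∀ j < i, 0 < ups m 0 h j := by
  intro j hj
  rcases Nat.eq_zero_or_pos j with he | he
  · subst he
    rw [ups_zero]
    have := hm 0 hj
    linarith
  · rw [ups_ne he]
    exact hm j hj

lemma le_ups (hh : 0 ≤ h) (j : ℕ) : m j ≤ ups m 0 h j := by
  rcases Nat.eq_zero_or_pos j with he | he
  · subst he
    rw [ups_zero]
    linarith
  · rw [ups_ne he]

lemma bm_Gp (h1 : C11 F D B L) (hc : Cv F) (hm : ∀ j < l, 0 < m j) (hh : 0 ≤ h) (hl : 0 < l) :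
    Bm (Gp F m σ h l) := by
  have hm0 := hm 0 hl
  have hme : Measurable (Gp F m σ h l) :=
    ((eg_FD (σ := σ) h1 (ups_pos hm hh)).sub (eg_FD (σ := σ) h1 hm)).meas
  obtain ⟨-, Bd, hBd⟩ := bm_sumsq h1
  have hBd' : ∀ z, ∑ e, D e z ^ 2 ≤ Bd := fun z => (le_abs_self _).trans (hBd z)
  refine ⟨hme, h / 2 * (σ 0 ^ 2 * Bd), fun y => ?_⟩
  have h0 : 0 ≤ Gp F m σ h l y :=
    sub_nonneg.2 (FD_mono h1 hm (fun j _ => le_ups hh j) y)
  rw [abs_of_nonneg h0]
  unfold Gp
  rw [ups_sub F m σ h hl]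
  exact In_le h1 hc hm0 hh hBd' (fun j hj => hm _ (by omega)) y

lemma Gp_nonneg (h1 : C11 F D B L) (hm : ∀ j < l, 0 < m j) (hh : 0 ≤ h) (y : κ → ℝ) :
    0 ≤ Gp F m σ h l y := sub_nonneg.2 (FD_mono h1 hm (fun j _ => le_ups hh j) y)

/-- **Exponential martingale.** -/
lemma size_eq (h1 : C11 F D B L) (hm : ∀ j < l + 1, 0 < m j) (hh : 0 ≤ h) (hl : 0 < l)
    (y : κ → ℝ) : Ax (m l) (σ l) (FD F m σ l) (fun z => Real.exp (m l * Gp F m σ h l z)) y =
      Real.exp (m l * Gp F m σ h (l + 1) y) := by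
  have hm' : ∀ j < l, 0 < m j := fun j hj => hm j (by omega)
  have l1 := lip_FD (σ := σ) h1.lip h1.B0 hm'
  have l2 := lip_FD (σ := σ) h1.lip h1.B0 (ups_pos (h := h) hm' hh)
  have hx := hm l (Nat.lt_succ_self l)
  have := exp_W_sub l1 h1.B0 l2 h1.B0 hx (σ l) y
  unfold Gp
  rw [← this, FD_succ, FD_succ, ups_ne hl]

/-- **(a)** -/
theorem size_step (h1 : C11 F D B L) (hc : Cv F) (hm : ∀ j < l + 1, 0 < m j) (hh : 0 ≤ h)
    (hl : 0 < l) (hmu : 0 < mu) (hml : mu ≤ m l) (y : κ → ℝ) :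
    Ax (m l) (σ l) (FD F m σ l) (fun z => Real.exp (mu * Gp F m σ h l z)) y ≤
      Real.exp (mu * Gp F m σ h (l + 1) y) := by
  have hm' : ∀ j < l, 0 < m j := fun j hj => hm j (by omega)
  exact ax_pow (lip_FD (σ := σ) h1.lip h1.B0 hm') h1.B0 (bm_Gp h1 hc hm' hh hl) hmu hml
    (size_eq h1 hm hh hl y).le

lemma size_mean (h1 : C11 F D B L) (hc : Cv F) (hm : ∀ j < l + 1, 0 < m j) (hh : 0 ≤ h)
    (hl : 0 < l) (y : κ → ℝ) :
    Ax (m l) (σ l) (FD F m σ l) (Gp F m σ h l) y ≤ Gp F m σ h (l + 1) y := by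
  have hm' : ∀ j < l, 0 < m j := fun j hj => hm j (by omega)
  exact ax_le (lip_FD (σ := σ) h1.lip h1.B0 hm') h1.B0 (bm_Gp h1 hc hm' hh hl)
    (hm l (Nat.lt_succ_self l)) (size_eq h1 hm hh hl y).le

/-- **(b)**: the increment dominates the squared gradient. -/
theorem size_gain (h1 : C11 F D B L) (hc : Cv F) (hh : 0 ≤ h) :
    ∀ l, 0 < l → (∀ j < l, 0 < m j) → ∀ y : κ → ℝ,
      h / 2 * (σ 0 ^ 2 * gD F D m σ l y) ≤ Gp F m σ h l y
  | 0, hl, _ => absurd hl (lt_irrefl 0)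
  | 1, _, hm => by
    intro y
    have h2 := gL_le_Xi h1 hc (hm 0 one_pos) hh (σ 0) y
    unfold Gp
    rw [FD_succ, FD_succ, FD_zero, FD_zero, ups_zero]
    exact h2
  | l + 2, _, hm => by
    intro y
    have hm' : ∀ j < l + 1, 0 < m j := fun j hj => hm j (by omega)
    have ih := size_gain h1 hc hh (l + 1) (Nat.succ_pos l) hm'
    have lU := lip_FD (σ := σ) h1.lip h1.B0 hm'
    have hb : Bm (gD F D m σ (l + 1)) := bm_gD h1 hm'
    have hg := gD_succ_le (σ := σ) (N := l + 2) h1 hm (Nat.lt_succ_self (l + 1)) y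
    have h3 := Ax_mono lU h1.B0 ((hb.const_mul (σ 0 ^ 2)).const_mul (h / 2)).eg
      (bm_Gp (σ := σ) h1 hc hm' hh (Nat.succ_pos l)).eg ih (m (l + 1)) (σ (l + 1)) y
    rw [Ax_const_mul, Ax_const_mul] at h3
    have h4 := size_mean (σ := σ) h1 hc hm hh (Nat.succ_pos l) y
    have h5 : h / 2 * (σ 0 ^ 2 * gD F D m σ (l + 2) y) ≤ h / 2 * (σ 0 ^ 2 *
        Ax (m (l + 1)) (σ (l + 1)) (FD F m σ (l + 1)) (gD F D m σ (l + 1)) y) :=
      mul_le_mul_of_nonneg_left (mul_le_mul_of_nonneg_left hg (sq_nonneg _)) (by linarith)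
    exact (h5.trans h3).trans h4

/-! ### the path -/

lemma EP_top (φ : (κ → ℝ) → ℝ) : EP F m σ N N φ = ∫ z, φ (√(tB σ N) • z) ∂(gI κ) := by
  unfold EP oD
  rw [Nat.sub_self]
  rfl

lemma oD_top (φ : (κ → ℝ) → ℝ) : oD F m σ N N φ = φ := by
  unfold oD
  rw [Nat.sub_self]
  rfl

/-- the density of the base -/
noncomputable def qB (F : (κ → ℝ) → ℝ) (m σ : ℕ → ℝ) (N l : ℕ) (q : (κ → ℝ) → ℝ)
    (z : κ → ℝ) : ℝ := oD F m σ N l q (√(tB σ N) • z)

lemma qB_succ (hl : l < N) (q : (κ → ℝ) → ℝ) :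
    qB F m σ N l q = qB F m σ N (l + 1) (Ax (m l) (σ l) (FD F m σ l) q) := by
  unfold qB
  rw [oD_succ F m σ q hl]

lemma int_qB (q : (κ → ℝ) → ℝ) : ∫ z, qB F m σ N l q z ∂(gI κ) = EP F m σ N l q := rfl

lemma qd_oD (h1 : C11 F D B L) (hm : ∀ j < N, 0 < m j) (hi : l ≤ N) (hq : Qd q) :
    Qd (oD F m σ N l q) := by
  obtain ⟨hb, δ, h0, hle⟩ := hq
  refine ⟨bm_oD h1 hm hi hb, δ, h0, fun y => ?_⟩
  have lU := lip_FD (σ := σ) h1.lip h1.B0 (mpos (hN := hi) hm)
  have h2 := TD_mono' (σ := fun j => σ (l + j)) lU h1.B0 (mpos' hm l) (Bm.const δ) hb hle y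
  rwa [TD_const' lU h1.B0 (mpos' hm l)] at h2

lemma qd_qB (h1 : C11 F D B L) (hm : ∀ j < N, 0 < m j) (hi : l ≤ N) (hq : Qd q) :
    Qd (qB F m σ N l q) := by
  obtain ⟨hb, δ, h0, hle⟩ := qd_oD (σ := σ) h1 hm hi hq
  exact ⟨Bm.smul' hb _, δ, h0, fun z => hle _⟩

/-- **(c)**: the Gibbs variational principle along the path. -/
theorem size_KL (h1 : C11 F D B L) (hc : Cv F) (hm : ∀ j < N, 0 < m j) (hh : 0 ≤ h)
    (hmu : 0 < mu) (hml : ∀ j, 0 < j → j < N → mu ≤ m j) :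
    ∀ k l, k + l = N → 0 < l → ∀ q : (κ → ℝ) → ℝ, Qd q →
      mu * EP F m σ N l (fun y => q y * Gp F m σ h l y) + Hq (qB F m σ N l q) ≤
        mu * ∫ z, qB F m σ N l q z * Gp F m σ h N (√(tB σ N) • z) ∂(gI κ) +
          EP F m σ N l (fun y => q y * Real.log (q y))
  | 0, l, hkl, hl, q, hq => by
    have : l = N := by omega
    subst this
    rw [EP_top, EP_top]
    unfold qB Hq
    rw [oD_top]
  | k + 1, l, hkl, hl, q, hq => by
    have hlN : l < N := by omega
    have hm' : ∀ j < l, 0 < m j := fun j hj => hm j (by omega)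
    have hm'' : ∀ j < l + 1, 0 < m j := fun j hj => hm j (by omega)
    have lU := lip_FD (σ := σ) h1.lip h1.B0 hm'
    have hq1 := hq.ax lU h1.B0 (m l) (σ l)
    have ih := size_KL h1 hc hm hh hmu hml k (l + 1) (by omega) (Nat.succ_pos l)
      (Ax (m l) (σ l) (FD F m σ l) q) hq1
    rw [← qB_succ hlN] at ih
    have hG := bm_Gp (σ := σ) h1 hc hm' hh hl
    have hG1 := bm_Gp (σ := σ) h1 hc hm'' hh (Nat.succ_pos l)
    rw [EP_succ hlN, EP_succ hlN (fun y => q y * Real.log (q y))]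
    have hpt : ∀ y, mu * Ax (m l) (σ l) (FD F m σ l) (fun z => q z * Gp F m σ h l z) y +
        Ax (m l) (σ l) (FD F m σ l) q y * Real.log (Ax (m l) (σ l) (FD F m σ l) q y) ≤
        mu * (Ax (m l) (σ l) (FD F m σ l) q y * Gp F m σ h (l + 1) y) +
          Ax (m l) (σ l) (FD F m σ l) (fun z => q z * Real.log (q z)) y := fun y =>
      gibbs lU h1.B0 hq hG (size_step h1 hc hm'' hh hl hmu (hml l hl hlN) y)
    have c1 : Bm fun y => mu * Ax (m l) (σ l) (FD F m σ l) (fun z => q z * Gp F m σ h l z) y :=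
      ((hq.1.mul hG).Ax lU h1.B0 _ _).const_mul mu
    have c2 := bm_mul_log hq1
    have c3 : Bm fun y => mu * (Ax (m l) (σ l) (FD F m σ l) q y * Gp F m σ h (l + 1) y) :=
      (hq1.1.mul hG1).const_mul mu
    have c4 := (bm_mul_log hq).Ax lU h1.B0 (m l) (σ l)
    have h2 := EP_mono (σ := σ) h1 hm (show l + 1 ≤ N by omega) (c1.add c2) (c3.add c4) hpt
    rw [EP_add h1 hm (by omega) c1 c2, EP_add h1 hm (by omega) c3 c4, EP_const_mul,
      EP_const_mul] at h2
    linarith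

/-- the entropy of the base density is between `0` and the entropy of the weight -/
lemma Hq_le_EP (h1 : C11 F D B L) (hm : ∀ j < N, 0 < m j) :
    ∀ k l, k + l = N → ∀ q : (κ → ℝ) → ℝ, Qd q →
      Hq (qB F m σ N l q) ≤ EP F m σ N l (fun y => q y * Real.log (q y))
  | 0, l, hkl, q, hq => by
    have : l = N := by omega
    subst this
    rw [EP_top]
    unfold qB Hq
    rw [oD_top]
  | k + 1, l, hkl, q, hq => by
    have hlN : l < N := by omega
    have hm' : ∀ j < l, 0 < m j := fun j hj => hm j (by omega)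
    have lU := lip_FD (σ := σ) h1.lip h1.B0 hm'
    have hq1 := hq.ax lU h1.B0 (m l) (σ l)
    have ih := Hq_le_EP h1 hm k (l + 1) (by omega) (Ax (m l) (σ l) (FD F m σ l) q) hq1
    rw [← qB_succ hlN] at ih
    refine ih.trans ?_
    rw [EP_succ hlN (fun y => q y * Real.log (q y))]
    exact EP_mono (σ := σ) h1 hm (by omega) (bm_mul_log hq1)
      ((bm_mul_log hq).Ax lU h1.B0 _ _) fun y => ent_le lU h1.B0 hq y

lemma Hq_nonneg (hq : Qd q) (hi : ∫ z, q z ∂(gI κ) = 1) : 0 ≤ Hq q := by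
  unfold Hq
  have h1 : ∫ z, (q z - 1) ∂(gI κ) ≤ ∫ z, q z * Real.log (q z) ∂(gI κ) := by
    refine integral_mono (hq.1.eg.sub (EG.const 1)).integrable (bm_mul_log hq).eg.integrable
      fun z => ?_
    have hp := hq.pos z
    have h2 := Real.one_sub_inv_le_log_of_pos hp
    have h3 := mul_le_mul_of_nonneg_left h2 hp.le
    have e : q z * (1 - (q z)⁻¹) = q z - 1 := by
      field_simp
    simp only
    linarith
  rw [integral_sub hq.1.eg.integrable (integrable_const _), hi] at h1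
  simpa using h1

end gen

end Vale.Agent.P146.H698
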