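import Vale.Agent.P146.H698.Size
import Vale.Agent.P146.H767.SA4

/-!
# P146: size of the gradient of the profile functional at every position, probability form

General number of layers.  `gap_FD`: the exponential gap of `FD F m σ N` over the free base.
`size_main`: for a weight `q` of the position `l` with entropy `K`,
`(h/2) σ₀² E q |∇FD_l|² ≤ PF m' - PF m + (self-averaging error) + K/μ`.
`size_prob`: the probability that `|∇FD_l|²` exceeds `R` is at most `e^{-K}` as soon as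
`(h/4) σ₀² R` is larger than the right side.
-/

open MeasureTheory ProbabilityTheory

namespace Vale.Agent.P146.H698

open Vale.Agent.P157.Lv Vale.Agent.P146.H425
open Vale.Agent.P146.R1
open Vale.Agent.P146.H785 Vale.Agent.P146.H767

set_option linter.unusedSectionVars false

section gen

variable {κ : Type} [Fintype κ] {F U G q φ ψ : (κ → ℝ) → ℝ} {D : κ → (κ → ℝ) → ℝ}
  {B B' L x s c mu h x1 θ R δ M E S K : ℝ} {m m' m0 m1 σ : ℕ → ℝ} {N i l : ℕ}

lemma sum_sq_eq (σ : ℕ → ℝ) (N : ℕ) : ∑ j ∈ Finset.range N, σ j ^ 2 = 1 - tB σ N := by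
  unfold tB
  ring

/-- constant exponents -/
lemma PF_const (h1 : C11 F D B L) (hx : 0 < x) :
    PF F (fun _ => x) σ N = DD x (1 - tB σ N) F + ∫ z, F z ∂(gI κ) := by
  rw [DD_eq]
  unfold PF
  have e : ∀ z : κ → ℝ, FD F (fun _ => x) σ N (√(tB σ N) • z) =
      W x (√(1 - tB σ N)) F (√(tB σ N) • z) := fun z => by
    rw [FD_const h1.lip h1.B0 hx, sum_sq_eq]
  simp_rw [e]
  rw [sub_sub_cancel]
  ring

lemma tB_le_one (σ : ℕ → ℝ) (N : ℕ) : tB σ N ≤ 1 := by
  unfold tB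
  have : 0 ≤ ∑ j ∈ Finset.range N, σ j ^ 2 := Finset.sum_nonneg fun _ _ => sq_nonneg _
  linarith

/-- **The exponential gap over the free base, any number of layers.** -/
theorem gap_FD (h1 : C11 F D B L) (hc : Cv F) (hx1 : 0 < x1) (h1m : ∀ j < N, x1 ≤ m j)
    (hM : ∀ j < N, m j ≤ M) (hM0 : 0 < M) (hθ : 0 < θ) (hθ1 : θ < 1) (hR : 0 < R)
    (hδ : 0 ≤ δ) (hδ1 : δ ≤ 1) (hδR : 1 / (1 - θ) - 1 ≤ δ * (R - 1)) (ht : 0 ≤ tB σ N) :
    W (θ * x1) (√(tB σ N)) (FD F m σ N) 0 - PF F m σ N ≤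
      θ * (W x1 1 F 0 - ∫ z, F z ∂(gI κ)) + δ * DD (R * M) (1 - tB σ N) F := by
  have hm : ∀ j < N, 0 < m j := fun j hj => hx1.trans_le (h1m j hj)
  have hθ' : 0 < 1 - θ := by linarith
  obtain ⟨m2, hm2⟩ : ∃ m2 : ℕ → ℝ, m2 = fun j => (m j - θ * x1) / (1 - θ) := ⟨_, rfl⟩
  have h2 : ∀ j < N, 0 < m2 j := by
    intro j hj
    rw [hm2]
    refine div_pos ?_ hθ'
    have := h1m j hj
    nlinarith
  have hc1 : ∀ j < N, 0 < (fun _ : ℕ => x1) j := fun _ _ => hx1
  have e1 : (1 - θ) • m2 + θ • (fun _ : ℕ => x1) = m := by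
    funext j
    rw [hm2]
    simp only [Pi.add_apply, Pi.smul_apply, smul_eq_mul]
    field_simp
    ring
  have c0 := c11_FD (σ := σ) h1 N hm
  have c2 := c11_FD (σ := σ) h1 N h2
  have cx := c11_FD (σ := σ) h1 N hc1
  have hRM : 0 < R * M := mul_pos hR hM0
  have k1 := layer0 (G := FD F m σ N) (G0 := FD F m2 σ N) (G1 := FD F (fun _ => x1) σ N)
    (x1 := x1) (p := 1 - θ) (q := θ) c0 c2.lip c2.B0 cx.lip cx.B0 hx1 hθ'.le hθ (by ring)
    (fun w0 w1 => by
      have k3 := FD_jc (σ := σ) h1 hc h2 hc1 hθ'.le hθ.le (by ring) w0 w1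
      rwa [e1] at k3) (√(tB σ N)) 0 0
  simp only [smul_zero, add_zero] at k1
  have e2 : W x1 (√(tB σ N)) (FD F (fun _ => x1) σ N) 0 = W x1 1 F 0 := by
    have : FD F (fun _ => x1) σ N = W x1 (√(1 - tB σ N)) F := by
      funext y
      rw [FD_const h1.lip h1.B0 hx1, sum_sq_eq]
    rw [this]
    refine W_W h1.lip h1.B0 hx1 ?_ 0
    rw [Real.sq_sqrt ht, Real.sq_sqrt (by linarith [tB_le_one σ N])]
    ring
  have e3 : Mn (√(tB σ N)) (FD F m2 σ N) 0 = PF F m2 σ N := by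
    rw [Mn_zero]
    rfl
  rw [e2, e3] at k1
  -- the larger exponents
  have hle : ∀ j < N, m2 j ≤ ((1 - δ) • m + δ • (fun _ : ℕ => R * M)) j := by
    intro j hj
    have a1 := h1m j hj
    have a2 := hM j hj
    have a0 := hm j hj
    simp only [Pi.add_apply, Pi.smul_apply, smul_eq_mul]
    have b1 : m2 j ≤ 1 / (1 - θ) * m j := by
      rw [hm2]
      simp only
      rw [one_div, inv_mul_eq_div]
      refine div_le_div_of_nonneg_right ?_ hθ'.le
      have : 0 < θ * x1 := mul_pos hθ hx1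
      linarith
    have b2 : 1 / (1 - θ) * m j ≤ (1 + δ * (R - 1)) * m j :=
      mul_le_mul_of_nonneg_right (by linarith) a0.le
    have b3 : δ * R * m j ≤ δ * R * M := mul_le_mul_of_nonneg_left a2 (by positivity)
    nlinarith
  have hcRM : ∀ j < N, 0 < (fun _ : ℕ => R * M) j := fun _ _ => hRM
  have k4 := PF_mono (σ := σ) h1 h2 hle
  have k5 := PF_conv (σ := σ) h1 hc hm hcRM (sub_nonneg.2 hδ1) hδ (by ring)
  rw [PF_const h1 hRM] at k5
  have k6 := mean_le_PF (σ := σ) h1 hm ht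
  have k7 := DD_nonneg h1 hRM (s := 1 - tB σ N) (by linarith [tB_le_one σ N]) (by linarith)
  set P := PF F m σ N
  set P2 := PF F m2 σ N
  set I := ∫ z, F z ∂(gI κ)
  set T := DD (R * M) (1 - tB σ N) F
  set W1 := W x1 1 F 0
  have k8 : P2 ≤ P + δ * (T + I - P) := by linarith
  have k9 : (1 - θ) * P2 ≤ (1 - θ) * (P + δ * (T + I - P)) :=
    mul_le_mul_of_nonneg_left k8 hθ'.le
  have k10 : (1 - θ) * (δ * (T + I - P)) ≤ δ * T := by
    have a1 : δ * (T + I - P) ≤ δ * T := mul_le_mul_of_nonneg_left (by linarith) hδ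
    have a2 : (1 - θ) * (δ * (T + I - P)) ≤ (1 - θ) * (δ * T) :=
      mul_le_mul_of_nonneg_left a1 hθ'.le
    have a3 : (1 - θ) * (δ * T) ≤ 1 * (δ * T) :=
      mul_le_mul_of_nonneg_right (by linarith) (mul_nonneg hδ k7)
    linarith
  have k11 : θ * I ≤ θ * P := mul_le_mul_of_nonneg_left k6 hθ.le
  nlinarith

/-- The self-averaging data of the base. -/
structure SaD (F : (κ → ℝ) → ℝ) (σ : ℕ → ℝ) (N : ℕ) (x1 θ R δ M E S : ℝ) : Prop where
  hx1 : 0 < x1
  hM : 0 < M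
  hθ : 0 < θ
  hθ1 : θ < 1
  hR : 0 < R
  hδ : 0 ≤ δ
  hδ1 : δ ≤ 1
  hδR : 1 / (1 - θ) - 1 ≤ δ * (R - 1)
  ht : 0 ≤ tB σ N
  hE : θ * (W x1 1 F 0 - ∫ z, F z ∂(gI κ)) + δ * DD (R * M) (1 - tB σ N) F ≤ E
  hS : 0 < S
  hES : 2 * E / (θ * x1) ≤ S ^ 2

/-- up -/
theorem sa_up (h1 : C11 F D B L) (hc : Cv F) (hA : SaD F σ N x1 θ R δ M E S)
    (h1m : ∀ j < N, x1 ≤ m j) (hM : ∀ j < N, m j ≤ M)
    (hq : EG q) (h0 : ∀ z, 0 ≤ q z) (hi : ∫ z, q z ∂(gI κ) = 1) :
    ∫ z, q z * FD F m σ N (√(tB σ N) • z) ∂(gI κ) ≤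
      PF F m σ N + (E + Hq q / (θ * x1)) := by
  have hm : ∀ j < N, 0 < m j := fun j hj => hA.hx1.trans_le (h1m j hj)
  have c0 := c11_FD (σ := σ) h1 N hm
  have k := up_shift c0.lip c0.B0 (mul_pos hA.hθ hA.hx1) (√(tB σ N)) 0 hq h0 hi
  have g := gap_FD h1 hc hA.hx1 h1m hM hA.hM hA.hθ hA.hθ1 hA.hR hA.hδ hA.hδ1 hA.hδR hA.ht
  have e : Mn (√(tB σ N)) (FD F m σ N) 0 = PF F m σ N := by
    rw [Mn_zero]
    rfl
  rw [e] at k
  simp only [zero_add] at k
  have := hA.hE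
  linarith

/-- down -/
theorem sa_dn (h1 : C11 F D B L) (hc : Cv F) (hA : SaD F σ N x1 θ R δ M E S)
    (h1m : ∀ j < N, x1 ≤ m j) (hM : ∀ j < N, m j ≤ M)
    (hq : EG q) (h0 : ∀ z, 0 ≤ q z) (hi : ∫ z, q z ∂(gI κ) = 1) :
    PF F m σ N - 12 * S * (Hq q + 3 / 2) ≤
      ∫ z, q z * FD F m σ N (√(tB σ N) • z) ∂(gI κ) := by
  have hm : ∀ j < N, 0 < m j := fun j hj => hA.hx1.trans_le (h1m j hj)
  have c0 := c11_FD (σ := σ) h1 N hm
  have hl := mul_pos hA.hθ hA.hx1
  have hcF : Cv (FD F m σ N) := cv_FD (σ := σ) h1 hc N hm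
  have g := gap_FD h1 hc hA.hx1 h1m hM hA.hM hA.hθ hA.hθ1 hA.hR hA.hδ hA.hδ1 hA.hδR hA.ht
  have e : Mn (√(tB σ N)) (FD F m σ N) 0 = PF F m σ N := by
    rw [Mn_zero]
    rfl
  have v := var_le_gap c0 hcF hl (√(tB σ N)) 0
  have hV : ∫ w, (FD F m σ N (0 + √(tB σ N) • w) - Mn (√(tB σ N)) (FD F m σ N) 0) ^ 2
      ∂(gI κ) ≤ S ^ 2 := by
    refine le_trans ?_ hA.hES
    rw [le_div_iff₀ hl]
    rw [e] at v ⊢
    have := hA.hE
    linarith
  have k := dn_shift c0.lip c0.B0 hcF (√(tB σ N)) 0 hA.hS hV hq h0 hi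
  rw [e] at k
  simp only [zero_add] at k
  linarith

/-- **(d)**: the size of the gradient under a weight. -/
theorem size_main (h1 : C11 F D B L) (hc : Cv F) (hA : SaD F σ N x1 θ R δ M E S)
    (h1m : ∀ j < N, x1 ≤ m j) (hM : ∀ j < N, ups m 0 h j ≤ M) (hh : 0 ≤ h) (hmu : 0 < mu)
    (hml : ∀ j, 0 < j → j < N → mu ≤ m j) (hl : 0 < l) (hlN : l ≤ N) (hq : Qd q)
    (hi : EP F m σ N l q = 1) (hK : EP F m σ N l (fun y => q y * Real.log (q y)) ≤ K) :
    h / 2 * (σ 0 ^ 2 * EP F m σ N l (fun y => q y * gD F D m σ l y)) ≤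
      (PF F (ups m 0 h) σ N - PF F m σ N) + (E + K / (θ * x1)) + 12 * S * (K + 3 / 2) +
        K / mu := by
  have hm : ∀ j < N, 0 < m j := fun j hj => hA.hx1.trans_le (h1m j hj)
  have hml' : ∀ j < l, 0 < m j := fun j hj => hm j (by omega)
  have hqB := qd_qB (σ := σ) h1 hm hlN hq
  have hqi : ∫ z, qB F m σ N l q z ∂(gI κ) = 1 := hi
  have hH0 := Hq_nonneg hqB hqi
  have hH1 := Hq_le_EP (σ := σ) h1 hm (N - l) l (by omega) q hq
  have k1 := size_KL (σ := σ) h1 hc hm hh hmu hml (N - l) l (by omega) hl q hq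
  have hM1 : ∀ j < N, m j ≤ M := fun j hj => (le_ups hh j).trans (hM j hj)
  have h1m' : ∀ j < N, x1 ≤ ups m 0 h j := fun j hj => (h1m j hj).trans (le_ups hh j)
  have k2 := sa_up h1 hc hA h1m' hM hqB.1.eg (fun z => (hqB.pos z).le) hqi
  have k3 := sa_dn h1 hc hA h1m hM1 hqB.1.eg (fun z => (hqB.pos z).le) hqi
  have hm' : ∀ j < N, 0 < ups m 0 h j := ups_pos hm hh
  have e1 : ∫ z, qB F m σ N l q z * Gp F m σ h N (√(tB σ N) • z) ∂(gI κ) =
      ∫ z, qB F m σ N l q z * FD F (ups m 0 h) σ N (√(tB σ N) • z) ∂(gI κ) -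
        ∫ z, qB F m σ N l q z * FD F m σ N (√(tB σ N) • z) ∂(gI κ) := by
    rw [← integral_sub (hqB.1.eg.mul (eg_PF h1 hm' _)).integrable
      (hqB.1.eg.mul (eg_PF h1 hm _)).integrable]
    refine integral_congr_ae (Filter.Eventually.of_forall fun z => ?_)
    simp only
    unfold Gp
    ring
  -- the gradient against the increment
  have k4 : h / 2 * (σ 0 ^ 2 * EP F m σ N l (fun y => q y * gD F D m σ l y)) ≤
      EP F m σ N l (fun y => q y * Gp F m σ h l y) := by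
    rw [← EP_const_mul, ← EP_const_mul]
    have b1 : Bm (gD F D m σ l) := bm_gD h1 hml'
    refine EP_mono h1 hm hlN (((hq.1.mul b1).const_mul _).const_mul _)
      (hq.1.mul (bm_Gp h1 hc hml' hh hl)) fun y => ?_
    have := mul_le_mul_of_nonneg_left (size_gain (σ := σ) h1 hc hh l hl hml' y) (hq.pos y).le
    refine le_trans (le_of_eq ?_) this
    ring
  have hqx := mul_pos hA.hθ hA.hx1
  set H0 := Hq (qB F m σ N l q)
  set EG1 := EP F m σ N l (fun y => q y * Gp F m σ h l y)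
  have hHK : H0 ≤ K := hH1.trans hK
  have k5 : mu * EG1 ≤ mu * (∫ z, qB F m σ N l q z * Gp F m σ h N (√(tB σ N) • z) ∂(gI κ)) +
      K := by linarith
  have k6 : EG1 ≤ (∫ z, qB F m σ N l q z * Gp F m σ h N (√(tB σ N) • z) ∂(gI κ)) + K / mu := by
    have e2 : mu * ((∫ z, qB F m σ N l q z * Gp F m σ h N (√(tB σ N) • z) ∂(gI κ)) + K / mu) =
        mu * (∫ z, qB F m σ N l q z * Gp F m σ h N (√(tB σ N) • z) ∂(gI κ)) + K := by
      field_simp
    rw [← e2] at k5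
    exact le_of_mul_le_mul_left k5 hmu
  rw [e1] at k6
  have k7 : H0 / (θ * x1) ≤ K / (θ * x1) := div_le_div_of_nonneg_right hHK hqx.le
  have k8 : 12 * S * (H0 + 3 / 2) ≤ 12 * S * (K + 3 / 2) :=
    mul_le_mul_of_nonneg_left (by linarith) (by linarith [hA.hS])
  linarith

/-- The probability of a set of positions. -/
noncomputable def PE (F : (κ → ℝ) → ℝ) (m σ : ℕ → ℝ) (N l : ℕ) (A : Set (κ → ℝ)) : ℝ :=
  EP F m σ N l (A.indicator fun _ => 1)

lemma bm_ind {A : Set (κ → ℝ)} (hA : MeasurableSet A) : Bm (A.indicator fun _ => (1 : ℝ)) := by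
  refine ⟨measurable_const.indicator hA, 1, fun y => ?_⟩
  by_cases hy : y ∈ A
  · rw [Set.indicator_of_mem hy]; simp
  · rw [Set.indicator_of_notMem hy]; simp

/-- **The size of the gradient at every position, in probability.** -/
theorem size_prob (h1 : C11 F D B L) (hc : Cv F) (hA : SaD F σ N x1 θ R δ M E S)
    (h1m : ∀ j < N, x1 ≤ m j) (hM : ∀ j < N, ups m 0 h j ≤ M) (hh : 0 ≤ h) (hmu : 0 < mu)
    (hml : ∀ j, 0 < j → j < N → mu ≤ m j) (hl : 0 < l) (hlN : l ≤ N) {Rr : ℝ} (hK : 0 ≤ K)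
    (hR : (PF F (ups m 0 h) σ N - PF F m σ N) + (E + K / (θ * x1)) +
      12 * S * (K + 3 / 2) + K / mu < h / 4 * (σ 0 ^ 2 * Rr)) :
    PE F m σ N l {z | Rr ≤ gD F D m σ l z} ≤ Real.exp (-K) := by
  have hm : ∀ j < N, 0 < m j := fun j hj => hA.hx1.trans_le (h1m j hj)
  have hml' : ∀ j < l, 0 < m j := fun j hj => hm j (by omega)
  have b1 : Bm (gD F D m σ l) := bm_gD h1 hml'
  set A : Set (κ → ℝ) := {z | Rr ≤ gD F D m σ l z} with hAd
  have mA : MeasurableSet A := measurableSet_le measurable_const b1.1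
  have bA := bm_ind mA
  set p := PE F m σ N l A with hp
  by_contra hcon
  rw [not_le] at hcon
  have hp0 : 0 < p := (Real.exp_pos _).trans hcon
  have hind : ∀ y, A.indicator (fun _ => (1 : ℝ)) y ≤ 1 := fun y => by
    by_cases hy : y ∈ A
    · rw [Set.indicator_of_mem hy]
    · rw [Set.indicator_of_notMem hy]; norm_num
  have hind0 : ∀ y, 0 ≤ A.indicator (fun _ => (1 : ℝ)) y := fun y => by
    by_cases hy : y ∈ A
    · rw [Set.indicator_of_mem hy]; norm_num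
    · rw [Set.indicator_of_notMem hy]
  have hp1 : p ≤ 1 := by
    rw [← EP_const (σ := σ) h1 hm hlN 1]
    exact EP_mono h1 hm hlN bA (Bm.const 1) hind
  set q : (κ → ℝ) → ℝ := fun y => (1 / (2 * p)) * A.indicator (fun _ => (1 : ℝ)) y + 1 / 2 with hq
  have bq : Bm q := (bA.const_mul _).add (Bm.const _)
  have hqd : Qd q := by
    refine ⟨bq, 1 / 2, by norm_num, fun y => ?_⟩
    have : 0 ≤ (1 / (2 * p)) * A.indicator (fun _ => (1 : ℝ)) y :=
      mul_nonneg (by positivity) (hind0 y)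
    simp only [hq]
    linarith
  have hi : EP F m σ N l q = 1 := by
    rw [hq, EP_add h1 hm hlN (bA.const_mul _) (Bm.const _), EP_const_mul, EP_const h1 hm hlN]
    change 1 / (2 * p) * p + 1 / 2 = 1
    field_simp
    norm_num
  have hqle : ∀ y, q y ≤ 1 / p := by
    intro y
    have h2 : (1 / (2 * p)) * A.indicator (fun _ => (1 : ℝ)) y ≤ (1 / (2 * p)) * 1 :=
      mul_le_mul_of_nonneg_left (hind y) (by positivity)
    have h3 : (1 : ℝ) ≤ 1 / p := by rw [le_div_iff₀ hp0]; linarith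
    have h4 : 1 / (2 * p) = 1 / p / 2 := by field_simp
    simp only [hq]
    rw [h4] at h2 ⊢
    linarith
  have hlog : Real.log (1 / p) ≤ K := by
    rw [one_div, Real.log_inv]
    have := (Real.lt_log_iff_exp_lt hp0).2 hcon
    linarith
  have hent : EP F m σ N l (fun y => q y * Real.log (q y)) ≤ K := by
    have h2 : EP F m σ N l (fun y => q y * Real.log (q y)) ≤
        EP F m σ N l (fun y => K * q y) := by
      refine EP_mono h1 hm hlN (bm_mul_log hqd) (bq.const_mul K) fun y => ?_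
      have hy := hqd.pos y
      have h3 : Real.log (q y) ≤ K := (Real.log_le_log hy (hqle y)).trans hlog
      rw [mul_comm K]
      exact mul_le_mul_of_nonneg_left h3 hy.le
    rwa [EP_const_mul, hi, mul_one] at h2
  have key := size_main h1 hc hA h1m hM hh hmu hml hl hlN hqd hi hent
  have h5 : Rr / 2 ≤ EP F m σ N l (fun y => q y * gD F D m σ l y) := by
    have h6 : EP F m σ N l (fun y => (Rr / (2 * p)) * A.indicator (fun _ => (1 : ℝ)) y) ≤
        EP F m σ N l (fun y => q y * gD F D m σ l y) := by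
      refine EP_mono h1 hm hlN (bA.const_mul _) (bq.mul b1) fun y => ?_
      have hg : 0 ≤ gD F D m σ l y := Finset.sum_nonneg fun _ _ => sq_nonneg _
      simp only [hq]
      by_cases hy : y ∈ A
      · rw [Set.indicator_of_mem hy]
        have hy' : Rr ≤ gD F D m σ l y := hy
        have h7 : Rr / (2 * p) = 1 / (2 * p) * Rr := by ring
        rw [h7, mul_one, mul_one]
        have h8 : 1 / (2 * p) * Rr ≤ 1 / (2 * p) * gD F D m σ l y :=
          mul_le_mul_of_nonneg_left hy' (by positivity)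
        nlinarith
      · rw [Set.indicator_of_notMem hy]
        simp only [mul_zero, zero_add]
        positivity
    rw [EP_const_mul] at h6
    refine le_trans (le_of_eq ?_) h6
    change Rr / 2 = Rr / (2 * p) * p
    field_simp
  have h9 : h / 4 * (σ 0 ^ 2 * Rr) ≤
      h / 2 * (σ 0 ^ 2 * EP F m σ N l (fun y => q y * gD F D m σ l y)) := by
    have := mul_le_mul_of_nonneg_left (mul_le_mul_of_nonneg_left h5 (sq_nonneg (σ 0)))
      (show 0 ≤ h / 2 by linarith)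
    refine le_trans (le_of_eq ?_) this
    ring
  linarith

end gen

end Vale.Agent.P146.H698
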