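import Vale.Agent.P146.H698.Size2
import Vale.Agent.P146.H767.SaM

/-!
# P146: size of the gradient at every position, with numbers

At an exponent `n^(-1/6+e) ≤ x ≤ n^(-a)` and a window `s ≥ n^(-w) x²` with
`D(x, s) ≥ n^(1-d) s x³`: for every profile with exponents in `[x/8, x]` on `[1-s-τ, 1]` and every
position, `P(|∇|² ≥ R) ≤ n^(-Q)` as soon as
`PF m' - PF m + n^(-c) D(x, s) + 8 Q log n / x < (m 0/4) σ₀² R`, `m' 0 = 2 m 0`.
-/

open MeasureTheory ProbabilityTheory Filter Topology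

namespace Vale.Agent.P146.H698

open Vale.Agent.P157.Lv Vale.Agent.P146.H425 Vale.Agent.P146.R1
  Vale.Agent.P146.H332 Vale.Agent.P146.H325
open Vale.Agent.P146.H785 Vale.Agent.P146.H767
open Vale.Agent.P146.H432 (Dn Lg AntiN ev_small ev_big)
open Vale.Agent.P146.H946 (Dz)

set_option linter.unusedSectionVars false

/-- **The self-averaging data with numbers, every profile.** -/
theorem sad_num {β a0 a e d w c : ℝ} (hβ : 0 < β) (hU : H695.UpM β a0) (haa : a0 < a)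
    (hd : 0 ≤ d) (hw : 0 ≤ w) (hc0 : 0 ≤ c) (hc : 2 * (d + w) + 2 * c < 5 * e) (Q : ℝ) :
    ∀ᶠ n : ℕ in atTop, ∀ x s τ : ℝ, (n : ℝ) ^ (-(1 / 6) + e) ≤ x → x ≤ (n : ℝ) ^ (-a) →
      (n : ℝ) ^ (-w) * x ^ 2 ≤ s → 0 ≤ τ → s + τ ≤ 1 →
      (n : ℝ) ^ (1 - d) * s * x ^ 3 ≤ Dn n β x s → ∃ θ E S : ℝ,
        (∀ (σ : ℕ → ℝ) (N : ℕ), 1 - tB σ N = s + τ →
          SaD (lz (β / √n) (SkS (n := n))) σ N ((n : ℝ) ^ (-(1 / 6) : ℝ) / 2) θ 2 (2 * θ) (2 * x)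
            E S) ∧
        (∀ K, K ≤ Q * Real.log n → E + K / (θ * ((n : ℝ) ^ (-(1 / 6) : ℝ) / 2)) +
          12 * S * (K + 3 / 2) ≤ (n : ℝ) ^ (-c) * Dn n β x s) ∧
        (n : ℝ) ^ (-(1 / 6) : ℝ) / 2 ≤ x / 8 := by
  obtain ⟨ε, hεd⟩ : ∃ ε, ε = (5 * e - 2 * (d + w) - 2 * c) / 7 := ⟨_, rfl⟩
  have hε : 0 < ε := by rw [hεd]; linarith
  have he : 0 < e := by linarith
  filter_upwards [hU (ε / 2) (by positivity), H432.Lg_base hβ hε, ev_big (C := 2400) hε,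
    ev_log (Q := Q) hε, ev_big (C := 4) he, ev_big (C := 4) (sub_pos.2 haa),
    ev_big (C := 32) (half_pos hε), eventually_ge_atTop 1]
    with n h1 h2 h3 h4 h5 h6 h8 h7 x s τ hxl hxu hs hτ hsτ hD
  have hn1 : (1 : ℝ) ≤ n := by exact_mod_cast h7
  have hn0 : (0 : ℝ) < n := by linarith
  have hx0 : 0 < x := (Real.rpow_pos_of_pos hn0 _).trans_le hxl
  have hs0 : 0 < s := by
    have : 0 < (n : ℝ) ^ (-w) * x ^ 2 := by
      have := Real.rpow_pos_of_pos hn0 (-w)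
      positivity
    linarith
  have hx2 : (n : ℝ) ^ (-(1 / 6) : ℝ) ≤ 4 * x := by
    have : (n : ℝ) ^ (-(1 / 6) : ℝ) ≤ (n : ℝ) ^ (-(1 / 6) + e) :=
      Real.rpow_le_rpow_of_exponent_le hn1 (by linarith)
    linarith
  have hx3 : 4 * x ≤ (n : ℝ) ^ (-a0) := by
    have e1 : (n : ℝ) ^ (-a0) = (n : ℝ) ^ (a - a0) * (n : ℝ) ^ (-a) := by
      rw [← Real.rpow_add hn0]
      congr 1
      ring
    rw [e1]
    exact mul_le_mul h6.le hxu hx0.le (by linarith)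
  have k2 : Lg n β (4 * x) ≤ (n : ℝ) ^ (1 + ε / 2) * (4 * x) ^ 6 := h1 (4 * x) hx2 hx3
  have hDD : DD (2 * (2 * x)) (s + τ) (lz (β / √n) (SkS (n := n))) ≤
      32 * (n : ℝ) ^ (1 + ε) * x ^ 5 := by
    have k3 := DD_le_W (c11_lz (β / √n) (SkS (n := n))) (x := 4 * x) (by positivity)
      (by linarith : 0 ≤ s + τ) hsτ
    rw [Lg_W n β (by positivity : 0 < 4 * x)] at k2
    have k4 := (mul_le_mul_of_nonneg_left k3 (by positivity : 0 ≤ 4 * x)).trans k2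
    have e1 : (n : ℝ) ^ (1 + ε / 2) * (4 * x) ^ 6 =
        4 * x * (1024 * (n : ℝ) ^ (1 + ε / 2) * x ^ 5) := by ring
    rw [e1] at k4
    have k5 := le_of_mul_le_mul_left k4 (by positivity)
    have e2 : (2 : ℝ) * (2 * x) = 4 * x := by ring
    rw [e2]
    refine k5.trans ?_
    have e3 : (n : ℝ) ^ (1 + ε) = (n : ℝ) ^ (1 + ε / 2) * (n : ℝ) ^ (ε / 2) := by
      rw [← Real.rpow_add hn0]
      congr 1
      ring
    rw [e3]
    have h9 : 32 * ((n : ℝ) ^ (1 + ε / 2) * x ^ 5) ≤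
        (n : ℝ) ^ (ε / 2) * ((n : ℝ) ^ (1 + ε / 2) * x ^ 5) := by
      refine mul_le_mul_of_nonneg_right h8.le ?_
      have := Real.rpow_pos_of_pos hn0 (1 + ε / 2)
      positivity
    linarith
  have hx1 : 0 < (n : ℝ) ^ (-(1 / 6) : ℝ) / 2 := by
    have := Real.rpow_pos_of_pos hn0 (-(1 / 6) : ℝ)
    positivity
  have hP : W ((n : ℝ) ^ (-(1 / 6) : ℝ) / 2) 1 (lz (β / √n) (SkS (n := n))) 0 -
      ∫ z, lz (β / √n) (SkS (n := n)) z ∂(gI (Pair n)) ≤ 2 * (n : ℝ) ^ (1 / 6 + ε) := by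
    rw [Lg_W n β hx1] at h2
    have e1 : (n : ℝ) ^ ε = (n : ℝ) ^ (-(1 / 6) : ℝ) / 2 * (2 * (n : ℝ) ^ (1 / 6 + ε)) := by
      have e2 : (n : ℝ) ^ (-(1 / 6) : ℝ) * (n : ℝ) ^ (1 / 6 + ε) = (n : ℝ) ^ ε := by
        rw [← Real.rpow_add hn0]
        congr 1
        ring
      linarith
    rw [e1] at h2
    exact le_of_mul_le_mul_left h2 hx1
  obtain ⟨θ, E, S, b1, b2, b3, b4, b5, b6⟩ := sa_core (N := n) (ε := ε) (d := d) (w := w)
    (c := c) (e := e) (x := x) (s := s) (D := Dn n β x s)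
    (P1 := W ((n : ℝ) ^ (-(1 / 6) : ℝ) / 2) 1 (lz (β / √n) (SkS (n := n))) 0 -
      ∫ z, lz (β / √n) (SkS (n := n)) z ∂(gI (Pair n)))
    (DD2 := DD (2 * (2 * x)) (s + τ) (lz (β / √n) (SkS (n := n)))) (K := Q * Real.log n) hn1 hε
    hd hw hc0 (by rw [hεd]; linarith) h3.le hxl hs hD hP hDD h4
  refine ⟨θ, E, S, fun σ N hσ => ?_, fun K hK => le_trans ?_ b6, ?_⟩
  · exact
    { hx1 := hx1
      hM := by positivity
      hθ := b1
      hθ1 := by linarith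
      hR := by norm_num
      hδ := by positivity
      hδ1 := by linarith
      hδR := side b1 b2
      ht := by linarith
      hE := by rw [hσ]; exact b3
      hS := b4
      hES := b5 }
  · unfold esa
    have hl : 0 < θ * ((n : ℝ) ^ (-(1 / 6) : ℝ) / 2) := mul_pos b1 hx1
    have g1 : K / (θ * ((n : ℝ) ^ (-(1 / 6) : ℝ) / 2)) ≤
        Q * Real.log n / (θ * ((n : ℝ) ^ (-(1 / 6) : ℝ) / 2)) := by gcongr
    have g2 : 12 * S * (K + 3 / 2) ≤ 12 * S * (Q * Real.log n + 3 / 2) :=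
      mul_le_mul_of_nonneg_left (by linarith) (by positivity)
    linarith
  · have e1 : (n : ℝ) ^ (-(1 / 6) + e) = (n : ℝ) ^ (-(1 / 6) : ℝ) * (n : ℝ) ^ e :=
      Real.rpow_add hn0 _ _
    rw [e1] at hxl
    have := mul_le_mul_of_nonneg_left h5.le (Real.rpow_nonneg hn0.le (-(1 / 6) : ℝ))
    linarith

/-- **[L14], numbers**: the probability that the squared gradient exceeds `R`. -/
theorem size_num {β a0 a e d w c : ℝ} (hβ : 0 < β) (hU : H695.UpM β a0) (haa : a0 < a)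
    (hd : 0 ≤ d) (hw : 0 ≤ w) (hc0 : 0 ≤ c) (hc : 2 * (d + w) + 2 * c < 5 * e) {Q : ℝ}
    (hQ : 0 ≤ Q) :
    ∀ᶠ n : ℕ in atTop, ∀ x s τ : ℝ, (n : ℝ) ^ (-(1 / 6) + e) ≤ x → x ≤ (n : ℝ) ^ (-a) →
      (n : ℝ) ^ (-w) * x ^ 2 ≤ s → 0 ≤ τ → s + τ ≤ 1 →
      (n : ℝ) ^ (1 - d) * s * x ^ 3 ≤ Dn n β x s →
      ∀ (m σ : ℕ → ℝ) (N l : ℕ), 1 - tB σ N = s + τ → (∀ j < N, x / 8 ≤ m j) →
        (∀ j < N, m j ≤ x) → 0 < l → l ≤ N → ∀ R : ℝ,
        (PF (lz (β / √n) (SkS (n := n))) (ups m 0 (m 0)) σ N -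
          PF (lz (β / √n) (SkS (n := n))) m σ N) + (n : ℝ) ^ (-c) * Dn n β x s +
            8 * (Q * Real.log n) / x < m 0 / 4 * (σ 0 ^ 2 * R) →
        PE (lz (β / √n) (SkS (n := n))) m σ N l
          {z | R ≤ gD (lz (β / √n) (SkS (n := n))) (Dz (β / √n)) m σ l z} ≤ (n : ℝ) ^ (-Q) := by
  filter_upwards [sad_num hβ hU haa hd hw hc0 hc Q, eventually_ge_atTop 1]
    with n h1 h7 x s τ hxl hxu hs hτ hsτ hD m σ N l hσ hm1 hm2 hl hlN R hR
  have hn1 : (1 : ℝ) ≤ n := by exact_mod_cast h7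
  have hn0 : (0 : ℝ) < n := by linarith
  have hx0 : 0 < x := (Real.rpow_pos_of_pos hn0 _).trans_le hxl
  obtain ⟨θ, E, S, hA, hK, hx8⟩ := h1 x s τ hxl hxu hs hτ hsτ hD
  have hcv := cv_lz (β / √n) (SkS (n := n))
  have h0N : 0 < N := by omega
  have hm00 : 0 < m 0 := lt_of_lt_of_le (by linarith) (hm1 0 h0N)
  have hM : ∀ j < N, ups m 0 (m 0) j ≤ 2 * x := by
    intro j hj
    rcases Nat.eq_zero_or_pos j with he | he
    · subst he
      rw [ups_zero]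
      have := hm2 0 h0N
      linarith
    · rw [ups_ne he]
      have := hm2 j hj
      linarith
  have key := size_prob (D := Dz (β / √n)) (mu := x / 8) (h := m 0) (l := l) (Rr := R)
    (K := Q * Real.log n) (c11_lz (β / √n) (SkS (n := n))) hcv (hA σ N hσ)
    (fun j hj => hx8.trans (hm1 j hj)) hM hm00.le (by positivity)
    (fun j _ hj => hm1 j hj) hl hlN (mul_nonneg hQ (Real.log_nonneg hn1)) (by
      have h2 := hK (Q * Real.log n) le_rfl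
      have e1 : Q * Real.log n / (x / 8) = 8 * (Q * Real.log n) / x := by field_simp
      rw [e1]
      linarith)
  refine key.trans (le_of_eq ?_)
  rw [Real.rpow_def_of_pos hn0]
  congr 1
  ring

end Vale.Agent.P146.H698
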