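import Vale.Agent.P146.H698.Size3

/-!
# P146: size of the gradient at a regular exponent

At an exponent `x` where the slope `G(x, s) = Gn n β x s` is regular to the right
(`G((1 + n^(-c5)) x) ≤ 2 G(x)`) and `D(x, s) ≤ x G(x, s)`: for every profile with exponents
`≤ x` on `[1-s-τ, 1]`, equal to `x` on `[1-s, 1]`, the squared gradient is at most
`16 G(x, s) / σ₀²` at every position, off probability `n^(-Q)`.
-/

open MeasureTheory ProbabilityTheory Filter Topology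

namespace Vale.Agent.P146.H698

open Vale.Agent.P157.Lv Vale.Agent.P146.H425 Vale.Agent.P146.R1
  Vale.Agent.P146.H332 Vale.Agent.P146.H325
open Vale.Agent.P146.H785 Vale.Agent.P146.H767
open Vale.Agent.P146.H432 (Dn Gn Lg AntiN ev_small ev_big Dn_tan' Gn_nonneg Dn_nonneg)
open Vale.Agent.P146.H946 (Dz)

set_option linter.unusedSectionVars false

/-- the deterministic core of `size_reg` -/
lemma reg_core {η x s τ G D1 D2 D3 P1 P2 I er Kl hη t : ℝ} (hη0 : 0 < η) (hx : 0 < x)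
    (hG : 0 < G) (hη1 : η ≤ 1) (h1 : D1 ≤ x * G) (h2 : D2 ≤ D1 + 2 * (η * x * G))
    (hD2 : 0 ≤ D2) (h3 : D3 ≤ (1 + τ / s) * D2) (ht : τ / s ≤ t) (ht0 : 0 ≤ t)
    (h6 : 6 * t ≤ η) (hP1 : P1 ≤ D3 + I) (hP2 : D1 + I ≤ P2) (her : er ≤ hη * D1)
    (hη0' : 0 ≤ hη) (h7 : 2 * hη ≤ η) (hK : Kl ≤ η / 2 * (x * G)) :
    (P1 - P2) + er + Kl < 4 * (η * (x * G)) := by
  have hxG : 0 < x * G := mul_pos hx hG
  have a1 : D3 ≤ (1 + t) * D2 := h3.trans (mul_le_mul_of_nonneg_right (by linarith) hD2)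
  have a20 : η * x * G ≤ 1 * (x * G) := by
    rw [mul_assoc]
    exact mul_le_mul_of_nonneg_right hη1 hxG.le
  have a2 : D2 ≤ 3 * (x * G) := by linarith
  have a3 : t * D2 ≤ t * (3 * (x * G)) := mul_le_mul_of_nonneg_left a2 ht0
  have a4 : t * (3 * (x * G)) ≤ η / 2 * (x * G) := by
    have : 3 * t * (x * G) ≤ η / 2 * (x * G) := mul_le_mul_of_nonneg_right (by linarith) hxG.le
    linarith
  have a5 : hη * D1 ≤ hη * (x * G) := mul_le_mul_of_nonneg_left h1 hη0'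
  have a6 : hη * (x * G) ≤ η / 2 * (x * G) := mul_le_mul_of_nonneg_right (by linarith) hxG.le
  have a7 : 0 < η * (x * G) := mul_pos hη0 hxG
  have a8 : η * x * G = η * (x * G) := by ring
  have a9 : (1 + t) * D2 = D2 + t * D2 := by ring
  linarith

/-- the logarithmic error, numbers only -/
lemma log_core {n x s G D Q d w e c5 : ℝ} (hn0 : 0 < n) (hx0 : 0 < x)
    (hxl : n ^ (-(1 / 6) + e) ≤ x) (hs : n ^ (-w) * x ^ 2 ≤ s)
    (hD : n ^ (1 - d) * s * x ^ 3 ≤ D) (hval : D ≤ x * G)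
    (h2 : 16 * Q * Real.log n ≤ n ^ (6 * e - d - w - c5)) :
    8 * (Q * Real.log n) / x ≤ n ^ (-c5) / 2 * (x * G) := by
  have rpos : ∀ a : ℝ, 0 < n ^ a := fun a => Real.rpow_pos_of_pos hn0 a
  have b1 : n ^ (6 * e - d - w) ≤ x * (x * G) := by
    have b2 : n ^ (1 - d) * (n ^ (-w) * x ^ 2) * x ^ 3 ≤ x * G := by
      refine le_trans ?_ (hD.trans hval)
      refine mul_le_mul_of_nonneg_right (mul_le_mul_of_nonneg_left hs (rpos _).le) ?_
      positivity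
    have b3 : n ^ (1 - d - w) * x ^ 6 ≤ x * (x * G) := by
      have := mul_le_mul_of_nonneg_left b2 hx0.le
      refine le_trans (le_of_eq ?_) this
      have e1 : n ^ (1 - d - w) = n ^ (1 - d) * n ^ (-w) := by
        rw [← Real.rpow_add hn0]
        congr 1
      rw [e1]
      ring
    refine le_trans ?_ b3
    have b4 : (n ^ (-(1 / 6) + e)) ^ 6 ≤ x ^ 6 := pow_le_pow_left₀ (rpos _).le hxl 6
    refine le_trans (le_of_eq ?_) (mul_le_mul_of_nonneg_left b4 (rpos (1 - d - w)).le)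
    rw [← Real.rpow_natCast, ← Real.rpow_mul hn0.le, ← Real.rpow_add hn0]
    congr 1
    push_cast
    ring
  have b5 : n ^ (6 * e - d - w - c5) ≤ n ^ (-c5) * (x * (x * G)) := by
    have := mul_le_mul_of_nonneg_left b1 (rpos (-c5)).le
    refine le_trans (le_of_eq ?_) this
    rw [← Real.rpow_add hn0]
    congr 1
    ring
  rw [div_le_iff₀ hx0]
  have b6 : n ^ (-c5) / 2 * (x * G) * x = n ^ (-c5) * (x * (x * G)) / 2 := by ring
  rw [b6]
  linarith

lemma pow_cmp {n C a b : ℝ} (hn0 : 0 < n) (h : C ≤ n ^ (a - b)) : C * n ^ (-a) ≤ n ^ (-b) := by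
  have e1 : n ^ (a - b) * n ^ (-a) = n ^ (-b) := by
    rw [← Real.rpow_add hn0]
    congr 1
    ring
  rw [← e1]
  exact mul_le_mul_of_nonneg_right h (Real.rpow_nonneg hn0.le _)

section Fix

variable {κ : Type} [Fintype κ] {F : (κ → ℝ) → ℝ} {D : κ → (κ → ℝ) → ℝ}
  {B L x1 θ R δ E S K mu : ℝ} {m σ : ℕ → ℝ} {N l : ℕ}

/-- the fixed-`n` statement: `size_prob` for a raise of the top exponent by `η x`. -/
theorem size_reg_fix {η x G : ℝ} (h11 : C11 F D B L) (hc : Cv F)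
    (hA : SaD F σ N x1 θ R δ (2 * x) E S) (hη0 : 0 < η) (hη1 : η ≤ 1) (hx : 0 < x)
    (h1m : ∀ j < N, x1 ≤ m j) (hx18 : ∀ j < N, x / 8 ≤ m j) (hm2 : ∀ j < N, m j ≤ x)
    (hm0 : m 0 = x) (hσ0 : σ 0 ≠ 0) (hl : 0 < l) (hlN : l ≤ N) (hK : 0 ≤ K)
    (hmain : (DD ((1 + η) * x) (1 - tB σ N) F + ∫ z, F z ∂(gI κ) - PF F m σ N) +
      (E + K / (θ * x1) + 12 * S * (K + 3 / 2)) + 8 * K / x < 4 * (η * (x * G))) :
    PE F m σ N l {z | 16 * G / σ 0 ^ 2 ≤ gD F D m σ l z} ≤ Real.exp (-K) := by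
  have h0N : 0 < N := by omega
  have hm : ∀ j < N, 0 < m j := fun j hj => lt_of_lt_of_le (by linarith) (hx18 j hj)
  have hηx : 0 ≤ η * x := by positivity
  have hηx1 : η * x ≤ x := by nlinarith
  have hM : ∀ j < N, ups m 0 (η * x) j ≤ 2 * x := by
    intro j hj
    rcases Nat.eq_zero_or_pos j with he | he
    · subst he
      rw [ups_zero, hm0]
      linarith
    · rw [ups_ne he]
      have := hm2 j hj
      linarith
  have hM' : ∀ j < N, ups m 0 (η * x) j ≤ (fun _ : ℕ => (1 + η) * x) j := by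
    intro j hj
    simp only
    rcases Nat.eq_zero_or_pos j with he | he
    · subst he
      rw [ups_zero, hm0]
      linarith
    · rw [ups_ne he]
      have := hm2 j hj
      linarith
  have hP1 : PF F (ups m 0 (η * x)) σ N ≤
      DD ((1 + η) * x) (1 - tB σ N) F + ∫ z, F z ∂(gI κ) := by
    refine (PF_mono (σ := σ) h11 (ups_pos hm hηx) hM').trans ?_
    rw [PF_const h11 (by positivity)]
  refine size_prob (mu := x / 8) (h := η * x) h11 hc hA h1m hM hηx (by positivity)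
    (fun j _ hj => hx18 j hj) hl hlN hK ?_
  have e1 : K / (x / 8) = 8 * K / x := by field_simp
  have e2 : η * x / 4 * (σ 0 ^ 2 * (16 * G / σ 0 ^ 2)) = 4 * (η * (x * G)) := by
    field_simp
    ring
  rw [e1, e2]
  linarith

end Fix

/-- **[L14] at a regular exponent.** -/
theorem size_reg {β a0 a e d w c c5 ch : ℝ} (hβ : 0 < β) (hU : H695.UpM β a0) (haa : a0 < a)
    (ha : 0 < a) (hd : 0 ≤ d) (hw : 0 ≤ w) (hc : 2 * (d + w) + 2 * c < 5 * e) (h5 : 0 < c5)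
    (hc5 : c5 < c) (hch : c5 < ch) (h6e : d + w + c5 < 6 * e) {Q : ℝ} (hQ : 0 ≤ Q) :
    ∀ᶠ n : ℕ in atTop, AntiN n β → ∀ x s τ : ℝ, (n : ℝ) ^ (-(1 / 6) + e) ≤ x →
      x ≤ (n : ℝ) ^ (-a) → (n : ℝ) ^ (-w) * x ^ 2 ≤ s → 0 ≤ τ → τ ≤ (n : ℝ) ^ (-ch) * s →
      s + τ ≤ 1 → (n : ℝ) ^ (1 - d) * s * x ^ 3 ≤ Dn n β x s → Dn n β x s ≤ x * Gn n β x s →
      Gn n β ((1 + (n : ℝ) ^ (-c5)) * x) s ≤ 2 * Gn n β x s →
      ∀ (m σ : ℕ → ℝ) (N l : ℕ), 1 - tB σ N = s + τ → (∀ j < N, x / 8 ≤ m j) →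
        (∀ j < N, m j ≤ x) → m 0 = x → σ 0 ≠ 0 →
        Dn n β x s + ∫ z, lz (β / √n) (SkS (n := n)) z ∂(gI (Pair n)) ≤
          PF (lz (β / √n) (SkS (n := n))) m σ N → 0 < l → l ≤ N →
        PE (lz (β / √n) (SkS (n := n))) m σ N l
          {z | 16 * Gn n β x s / σ 0 ^ 2 ≤
            gD (lz (β / √n) (SkS (n := n))) (Dz (β / √n)) m σ l z} ≤ (n : ℝ) ^ (-Q) := by
  have hc0 : 0 ≤ c := by linarith
  have hε : 0 < 6 * e - d - w - c5 := by linarith
  filter_upwards [sad_num hβ hU haa hd hw hc0 hc Q, ev_log (Q := 16 * Q) hε,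
    ev_big (C := 6) (sub_pos.2 hch), ev_big (C := 2) (sub_pos.2 hc5), ev_big (C := 2) ha,
    eventually_ge_atTop 1]
    with n h1 h2 h3 h4 h6 h7 hA x s τ hxl hxu hs hτ hτs hsτ hD hval hreg m σ N l hσ hm1 hm2 hm0
      hσ0 hlow hl hlN
  have hn1 : (1 : ℝ) ≤ n := by exact_mod_cast h7
  have hn0 : (0 : ℝ) < n := by linarith
  have rpos : ∀ a : ℝ, 0 < (n : ℝ) ^ a := fun a => Real.rpow_pos_of_pos hn0 a
  have hx0 : 0 < x := (rpos _).trans_le hxl
  have hs0 : 0 < s := by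
    have : 0 < (n : ℝ) ^ (-w) * x ^ 2 := mul_pos (rpos _) (pow_pos hx0 2)
    linarith
  obtain ⟨θ, E, S, hSa, hK, hx8⟩ := h1 x s τ hxl hxu hs hτ hsτ hD
  have h6t : 6 * (n : ℝ) ^ (-ch) ≤ (n : ℝ) ^ (-c5) := pow_cmp hn0 h3.le
  have h2c : 2 * (n : ℝ) ^ (-c) ≤ (n : ℝ) ^ (-c5) := pow_cmp hn0 h4.le
  have hKl := log_core (Q := Q) (c5 := c5) hn0 hx0 hxl hs hD hval (by linarith)
  have hη0 : 0 < (n : ℝ) ^ (-c5) := rpos _
  have hη1 : (n : ℝ) ^ (-c5) ≤ 1 := Real.rpow_le_one_of_one_le_of_nonpos hn1 (by linarith)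
  have hx1 : 2 * x ≤ 1 := by
    have e1 : 2 * (n : ℝ) ^ (-a) ≤ (n : ℝ) ^ (-(0 : ℝ)) := pow_cmp hn0 (by
      rw [sub_zero]
      exact h6.le)
    rw [neg_zero, Real.rpow_zero] at e1
    linarith
  have hDpos : 0 < Dn n β x s :=
    lt_of_lt_of_le (mul_pos (mul_pos (rpos _) hs0) (pow_pos hx0 3)) hD
  have ht : τ / s ≤ (n : ℝ) ^ (-ch) := by
    rw [div_le_iff₀ hs0]
    exact hτs
  have htp := (rpos (-ch)).le
  have hcp := (rpos (-c)).le
  have hKK := hK (Q * Real.log n) le_rfl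
  have hQn : 0 ≤ Q * Real.log n := mul_nonneg hQ (Real.log_nonneg hn1)
  have hfin : Real.exp (-(Q * Real.log n)) ≤ (n : ℝ) ^ (-Q) := by
    rw [Real.rpow_def_of_pos hn0]
    refine le_of_eq ?_
    congr 1
    ring
  clear h1 h2 h3 h4 h6 hs hD hxl hxu hK
  generalize (n : ℝ) ^ (-c5) = η at *
  generalize (n : ℝ) ^ (-ch) = t at *
  generalize (n : ℝ) ^ (-c) = hη at *
  have hy0 : 0 < (1 + η) * x := by positivity
  have hy1 : (1 + η) * x ≤ 1 := by nlinarith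
  have hlong := hA.longer hy0 hy1 hs0 hτ hsτ
  have htan := Dn_tan' n β (x := (1 + η) * x) (y := x) hy0 hx0 hs0.le (by linarith)
  have hD20 := Dn_nonneg n β (x := (1 + η) * x) (s := s) hy0 hs0.le (by linarith)
  have hDDn : DD ((1 + η) * x) (1 - tB σ N) (lz (β / √n) (SkS (n := n))) =
      Dn n β ((1 + η) * x) (s + τ) := by
    rw [hσ]
    rfl
  have hfix := size_reg_fix (F := lz (β / √n) (SkS (n := n))) (D := Dz (β / √n))
    (G := Gn n β x s) (l := l) (K := Q * Real.log n)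
    (c11_lz (β / √n) (SkS (n := n))) (cv_lz (β / √n) (SkS (n := n))) (hSa σ N hσ) hη0 hη1 hx0
    (fun j hj => hx8.trans (hm1 j hj)) hm1 hm2 hm0 hσ0 hl hlN hQn
  rw [hDDn] at hfix
  refine (hfix ?_).trans hfin
  clear hfix hSa hfin hDDn
  generalize PF (lz (β / √n) (SkS (n := n))) m σ N = P2 at *
  generalize (∫ z, lz (β / √n) (SkS (n := n)) z ∂(gI (Pair n))) = I at *
  generalize Dn n β ((1 + η) * x) (s + τ) = D3 at *
  generalize Dn n β ((1 + η) * x) s = D2 at *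
  generalize Gn n β ((1 + η) * x) s = G2 at *
  generalize Dn n β x s = D1 at *
  generalize Gn n β x s = G at *
  have hG0 : 0 < G := by
    have h : 0 < x * G := hDpos.trans_le hval
    exact (mul_pos_iff_of_pos_left hx0).1 h
  have hηx : 0 ≤ η * x := by positivity
  have hD2 : D2 ≤ D1 + 2 * (η * x * G) := by
    have e1 : (x - (1 + η) * x) * G2 = -(η * x * G2) := by ring
    rw [e1] at htan
    have := mul_le_mul_of_nonneg_left hreg hηx
    linarith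
  have := reg_core (I := I) hη0 hx0 hG0 hη1 hval hD2 hD20 hlong ht htp h6t le_rfl hlow hKK hcp
    h2c hKl
  linarith

end Vale.Agent.P146.H698
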