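import Vale.Agent.P146.H698.Size3

/-!
# P146: size of the gradient, in terms of numbers only

No upper bound of the family `D(x, s)` is used.  At an exponent `x ≥ n^(-1/6+e)` and a window
`s ≤ 1` with `D(x, s) ≥ n^(1/6+κ)` and `D(4x, s) ≤ n^γ D(x, s)`, `γ + 2c < κ`: for every profile
with exponents in `[x/8, x]` on `[1-s, 1]` and every position, `P(|∇|² ≥ R) ≤ n^(-Q)` as soon as
`PF m' - PF m + n^(-c) D(x, s) + 8 Q log n / x < (m 0/4) σ₀² R`, `m' 0 = 2 m 0`.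
-/

open MeasureTheory ProbabilityTheory Filter Topology

namespace Vale.Agent.P146.H698

open Vale.Agent.P157.Lv Vale.Agent.P146.H425 Vale.Agent.P146.R1
  Vale.Agent.P146.H332 Vale.Agent.P146.H325
open Vale.Agent.P146.H785 Vale.Agent.P146.H767
open Vale.Agent.P146.H432 (Dn Lg AntiN ev_small ev_big)
open Vale.Agent.P146.H946 (Dz)

set_option linter.unusedSectionVars false

lemma cpow {N C ε a b : ℝ} (hN : 1 ≤ N) (hC : C ≤ N ^ ε) (h : a + ε ≤ b) : C * N ^ a ≤ N ^ b := by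
  have hN0 : 0 < N := by linarith
  have h1 : C * N ^ a ≤ N ^ ε * N ^ a := mul_le_mul_of_nonneg_right hC (Real.rpow_nonneg hN0.le _)
  rw [← Real.rpow_add hN0] at h1
  exact h1.trans (Real.rpow_le_rpow_of_exponent_le hN (by linarith))

lemma sqrt_core {A B D q : ℝ} (hB : 0 < B) (hD : 0 < D) (hq : 0 < q)
    (h : 576 * (q ^ 2 * A) ≤ B ^ 2 * D) : 24 * q * √(A * D) ≤ B * D := by
  have h1 : √(A * D) ≤ B * D / (24 * q) := by
    refine Real.sqrt_le_iff.2 ⟨by positivity, ?_⟩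
    rw [div_pow, le_div_iff₀ (by positivity)]
    have := mul_le_mul_of_nonneg_right h hD.le
    nlinarith
  rw [le_div_iff₀ (by positivity)] at h1
  linarith

/-- the choice of the parameters -/
lemma sa_coreD {N ε κ c γ D P1 DD2 K : ℝ} (hN : 1 ≤ N) (hε : 0 < ε) (hc : 0 ≤ c) (hγ : 0 ≤ γ)
    (hκ : γ + 2 * c + 9 * ε ≤ κ) (hb : 2400 ≤ N ^ ε) (hD : N ^ (1 / 6 + κ) ≤ D)
    (hP : P1 ≤ 2 * N ^ (1 / 6 + ε)) (hDD : DD2 ≤ N ^ γ * D) (hK : K + 3 / 2 ≤ N ^ ε) :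
    ∃ θ E S : ℝ, 0 < θ ∧ θ ≤ 1 / 2 ∧ θ * P1 + 2 * θ * DD2 ≤ E ∧ 0 < S ∧
      2 * E / (θ * (N ^ (-(1 / 6) : ℝ) / 2)) ≤ S ^ 2 ∧
      esa E S K (θ * (N ^ (-(1 / 6) : ℝ) / 2)) ≤ N ^ (-c) * D := by
  have hN0 : 0 < N := by linarith
  have rpos : ∀ a : ℝ, 0 < N ^ a := fun a => Real.rpow_pos_of_pos hN0 a
  have radd : ∀ a b : ℝ, N ^ a * N ^ b = N ^ (a + b) := fun a b => (Real.rpow_add hN0 a b).symm
  have hD0 : 0 < D := (rpos _).trans_le hD
  -- lower bounds of multiples of `D`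
  have low : ∀ a : ℝ, N ^ (a + (1 / 6 + κ)) ≤ N ^ a * D := fun a => by
    rw [← radd]
    exact mul_le_mul_of_nonneg_left hD (rpos a).le
  obtain ⟨k, hk⟩ : ∃ k, k = γ + c + 4 * ε := ⟨_, rfl⟩
  have hθ2 : N ^ (-k) ≤ 1 / 2 := by
    have h1 : 2 * N ^ (-k) ≤ N ^ (0 : ℝ) := cpow (ε := ε) hN (by linarith) (by rw [hk]; linarith)
    rw [Real.rpow_zero] at h1
    linarith
  have hEpos : 0 < N ^ (-(c + ε)) * D := mul_pos (rpos _) hD0
  refine ⟨N ^ (-k), N ^ (-(c + ε)) * D, 2 * √(N ^ (k - (c + ε) + 1 / 6) * D), rpos _, hθ2,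
    ?_, ?_, ?_, ?_⟩
  · -- the gap
    have h1 : N ^ (-k) * P1 ≤ 1 / 2 * (N ^ (-(c + ε)) * D) := by
      have h2 : N ^ (-k) * P1 ≤ N ^ (-k) * (2 * N ^ (1 / 6 + ε)) :=
        mul_le_mul_of_nonneg_left hP (rpos _).le
      have h3 : 4 * N ^ (-k + (1 / 6 + ε)) ≤ N ^ (-(c + ε) + (1 / 6 + κ)) :=
        cpow (ε := ε) hN (by linarith) (by rw [hk]; linarith)
      have h4 := low (-(c + ε))
      have e1 : N ^ (-k) * (2 * N ^ (1 / 6 + ε)) = 2 * N ^ (-k + (1 / 6 + ε)) := by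
        rw [← radd (-k)]; ring
      rw [e1] at h2
      linarith
    have h2 : 2 * N ^ (-k) * DD2 ≤ 1 / 2 * (N ^ (-(c + ε)) * D) := by
      have h2 : 2 * N ^ (-k) * DD2 ≤ 2 * N ^ (-k) * (N ^ γ * D) :=
        mul_le_mul_of_nonneg_left hDD (by have := rpos (-k); linarith)
      have h3 : 4 * N ^ (-k + γ) ≤ N ^ (-(c + ε)) :=
        cpow (ε := ε) hN (by linarith) (by rw [hk]; linarith)
      have h4 := mul_le_mul_of_nonneg_right h3 hD0.le
      have e1 : 2 * N ^ (-k) * (N ^ γ * D) = 2 * N ^ (-k + γ) * D := by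
        rw [← radd (-k)]; ring
      rw [e1] at h2
      linarith
    linarith
  · have := Real.sqrt_pos.2 (mul_pos (rpos (k - (c + ε) + 1 / 6)) hD0)
    linarith
  · -- the variance
    have e0 : (2 * √(N ^ (k - (c + ε) + 1 / 6) * D)) ^ 2 =
        4 * (N ^ (k - (c + ε) + 1 / 6) * D) := by
      rw [mul_pow, Real.sq_sqrt (mul_nonneg (rpos _).le hD0.le)]
      norm_num
    rw [e0, div_le_iff₀ (by have := rpos (-k); have := rpos (-(1 / 6)); positivity)]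
    have e1 : N ^ (k - (c + ε) + 1 / 6) * (N ^ (-k) * N ^ (-(1 / 6) : ℝ)) = N ^ (-(c + ε)) := by
      rw [radd, radd]
      congr 1
      ring
    have e2 : 4 * (N ^ (k - (c + ε) + 1 / 6) * D) * (N ^ (-k) * (N ^ (-(1 / 6) : ℝ) / 2)) =
        2 * (N ^ (k - (c + ε) + 1 / 6) * (N ^ (-k) * N ^ (-(1 / 6) : ℝ))) * D := by ring
    rw [e2, e1]
    exact le_of_eq (by ring)
  · -- the error
    unfold esa
    have k1 : K / (N ^ (-k) * (N ^ (-(1 / 6) : ℝ) / 2)) ≤ N ^ (-(c + ε)) * D := by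
      rw [div_le_iff₀ (by have := rpos (-k); have := rpos (-(1 / 6)); positivity)]
      have h1 : K ≤ N ^ ε := by linarith
      refine h1.trans ?_
      have h2 := mul_le_mul_of_nonneg_right (low (-(c + ε)))
        (by have := rpos (-k); have := rpos (-(1 / 6)); positivity :
          0 ≤ N ^ (-k) * (N ^ (-(1 / 6) : ℝ) / 2))
      refine le_trans ?_ h2
      have e1 : N ^ (-(c + ε) + (1 / 6 + κ)) * (N ^ (-k) * (N ^ (-(1 / 6) : ℝ) / 2)) =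
          N ^ (-(c + ε) + (1 / 6 + κ) + (-k + -(1 / 6))) / 2 := by
        rw [← radd (-(c + ε) + (1 / 6 + κ)), ← radd (-k)]; ring
      rw [e1]
      have h3 : 2 * N ^ ε ≤ N ^ (-(c + ε) + (1 / 6 + κ) + (-k + -(1 / 6))) :=
        cpow (ε := ε) hN (by linarith) (by rw [hk]; linarith)
      linarith
    have k2 : 12 * (2 * √(N ^ (k - (c + ε) + 1 / 6) * D)) * (K + 3 / 2) ≤
        N ^ (-(c + ε)) * D := by
      have h1 : 12 * (2 * √(N ^ (k - (c + ε) + 1 / 6) * D)) * (K + 3 / 2) ≤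
          24 * N ^ ε * √(N ^ (k - (c + ε) + 1 / 6) * D) := by
        have := mul_le_mul_of_nonneg_left hK
          (Real.sqrt_nonneg (N ^ (k - (c + ε) + 1 / 6) * D))
        linarith
      refine h1.trans (sqrt_core (rpos _) hD0 (rpos _) ?_)
      have e1 : (N ^ ε) ^ 2 * N ^ (k - (c + ε) + 1 / 6) =
          N ^ (ε + ε + (k - (c + ε) + 1 / 6)) := by
        rw [pow_two, radd, radd]
      have e2 : (N ^ (-(c + ε))) ^ 2 * D = N ^ (-(c + ε) + -(c + ε)) * D := by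
        rw [pow_two, radd]
      rw [e1, e2]
      refine le_trans ?_ (low _)
      exact cpow (ε := ε) hN (by linarith) (by rw [hk]; linarith)
    have k3 : 3 * N ^ (-(c + ε)) ≤ N ^ (-c) := cpow (ε := ε) hN (by linarith) (by linarith)
    have k4 := mul_le_mul_of_nonneg_right k3 hD0.le
    linarith

/-- **The self-averaging data in terms of numbers.** -/
theorem sad_numD {β a0 e κ γ c : ℝ} (hβ : 0 < β) (he : 0 < e) (hc0 : 0 ≤ c)
    (hγ : 0 ≤ γ) (hκ : γ + 2 * c < κ) (Q : ℝ) (hU : H695.UpM β a0) :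
    ∀ᶠ n : ℕ in atTop, ∀ x s : ℝ, (n : ℝ) ^ (-(1 / 6) + e) ≤ x → 0 ≤ s → s ≤ 1 →
      (n : ℝ) ^ (1 / 6 + κ) ≤ Dn n β x s → Dn n β (4 * x) s ≤ (n : ℝ) ^ γ * Dn n β x s →
      ∃ θ E S : ℝ,
        (∀ (σ : ℕ → ℝ) (N : ℕ), 1 - tB σ N = s →
          SaD (lz (β / √n) (SkS (n := n))) σ N ((n : ℝ) ^ (-(1 / 6) : ℝ) / 2) θ 2 (2 * θ) (2 * x)
            E S) ∧
        (∀ K, K ≤ Q * Real.log n → E + K / (θ * ((n : ℝ) ^ (-(1 / 6) : ℝ) / 2)) +
          12 * S * (K + 3 / 2) ≤ (n : ℝ) ^ (-c) * Dn n β x s) ∧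
        (n : ℝ) ^ (-(1 / 6) : ℝ) / 2 ≤ x / 8 := by
  obtain ⟨ε, hεd⟩ : ∃ ε, ε = (κ - (γ + 2 * c)) / 9 := ⟨_, rfl⟩
  have hε : 0 < ε := by rw [hεd]; linarith
  filter_upwards [H432.Lg_base hβ hε, ev_big (C := 2400) hε,
    ev_log (Q := Q) hε, ev_big (C := 4) he, eventually_ge_atTop 1]
    with n h2 h3 h4 h5 h7 x s hxl hs hs1 hD hD4
  have hn1 : (1 : ℝ) ≤ n := by exact_mod_cast h7
  have hn0 : (0 : ℝ) < n := by linarith
  have hx0 : 0 < x := (Real.rpow_pos_of_pos hn0 _).trans_le hxl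
  have hx1 : 0 < (n : ℝ) ^ (-(1 / 6) : ℝ) / 2 := by
    have := Real.rpow_pos_of_pos hn0 (-(1 / 6) : ℝ)
    positivity
  have hP : W ((n : ℝ) ^ (-(1 / 6) : ℝ) / 2) 1 (lz (β / √n) (SkS (n := n))) 0 -
      ∫ z, lz (β / √n) (SkS (n := n)) z ∂(gI (Pair n)) ≤ 2 * (n : ℝ) ^ (1 / 6 + ε) := by
    rw [Lg_W n β hx1] at h2
    have e1 : (n : ℝ) ^ ε = (n : ℝ) ^ (-(1 / 6) : ℝ) / 2 * (2 * (n : ℝ) ^ (1 / 6 + ε)) := by
      have e2 : (n : ℝ) ^ (-(1 / 6) : ℝ) * (n : ℝ) ^ (1 / 6 + ε) = (n : ℝ) ^ ε := by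
        rw [← Real.rpow_add hn0]
        congr 1
        ring
      linarith
    rw [e1] at h2
    exact le_of_mul_le_mul_left h2 hx1
  have hDD : DD (2 * (2 * x)) s (lz (β / √n) (SkS (n := n))) ≤ (n : ℝ) ^ γ * Dn n β x s := by
    have e2 : (2 : ℝ) * (2 * x) = 4 * x := by ring
    rw [e2]
    exact hD4
  obtain ⟨θ, E, S, b1, b2, b3, b4, b5, b6⟩ := sa_coreD (N := n) (ε := ε) (κ := κ)
    (c := c) (γ := γ) (D := Dn n β x s)
    (P1 := W ((n : ℝ) ^ (-(1 / 6) : ℝ) / 2) 1 (lz (β / √n) (SkS (n := n))) 0 -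
      ∫ z, lz (β / √n) (SkS (n := n)) z ∂(gI (Pair n)))
    (DD2 := DD (2 * (2 * x)) s (lz (β / √n) (SkS (n := n)))) (K := Q * Real.log n) hn1 hε
    hc0 hγ (by rw [hεd]; linarith) h3.le hD hP hDD h4
  refine ⟨θ, E, S, fun σ N hσ => ?_, fun K hK => le_trans ?_ b6, ?_⟩
  · exact
    { hx1 := hx1
      hM := by positivity
      hθ := b1
      hθ1 := by linarith
      hR := by norm_num
      hδ := by positivity
      hδ1 := by linarith
      hδR := side b1 b2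
      ht := by linarith
      hE := by rw [hσ]; exact b3
      hS := b4
      hES := b5 }
  · unfold esa
    have hl : 0 < θ * ((n : ℝ) ^ (-(1 / 6) : ℝ) / 2) := mul_pos b1 hx1
    have g1 : K / (θ * ((n : ℝ) ^ (-(1 / 6) : ℝ) / 2)) ≤
        Q * Real.log n / (θ * ((n : ℝ) ^ (-(1 / 6) : ℝ) / 2)) := by gcongr
    have g2 : 12 * S * (K + 3 / 2) ≤ 12 * S * (Q * Real.log n + 3 / 2) :=
      mul_le_mul_of_nonneg_left (by linarith) (by positivity)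
    linarith
  · have e1 : (n : ℝ) ^ (-(1 / 6) + e) = (n : ℝ) ^ (-(1 / 6) : ℝ) * (n : ℝ) ^ e :=
      Real.rpow_add hn0 _ _
    rw [e1] at hxl
    have := mul_le_mul_of_nonneg_left h5.le (Real.rpow_nonneg hn0.le (-(1 / 6) : ℝ))
    linarith

/-- **The size of the gradient in terms of numbers.** -/
theorem size_numD {β a0 e κ γ c : ℝ} (hβ : 0 < β) (he : 0 < e) (hc0 : 0 ≤ c)
    (hγ : 0 ≤ γ) (hκ : γ + 2 * c < κ) {Q : ℝ} (hQ : 0 ≤ Q) (hU : H695.UpM β a0) :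
    ∀ᶠ n : ℕ in atTop, ∀ x s : ℝ, (n : ℝ) ^ (-(1 / 6) + e) ≤ x → 0 ≤ s → s ≤ 1 →
      (n : ℝ) ^ (1 / 6 + κ) ≤ Dn n β x s → Dn n β (4 * x) s ≤ (n : ℝ) ^ γ * Dn n β x s →
      ∀ (m σ : ℕ → ℝ) (N l : ℕ), 1 - tB σ N = s → (∀ j < N, x / 8 ≤ m j) →
        (∀ j < N, m j ≤ x) → 0 < l → l ≤ N → ∀ R : ℝ,
        (PF (lz (β / √n) (SkS (n := n))) (ups m 0 (m 0)) σ N -
          PF (lz (β / √n) (SkS (n := n))) m σ N) + (n : ℝ) ^ (-c) * Dn n β x s +
            8 * (Q * Real.log n) / x < m 0 / 4 * (σ 0 ^ 2 * R) →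
        PE (lz (β / √n) (SkS (n := n))) m σ N l
          {z | R ≤ gD (lz (β / √n) (SkS (n := n))) (Dz (β / √n)) m σ l z} ≤ (n : ℝ) ^ (-Q) := by
  filter_upwards [sad_numD hβ he hc0 hγ hκ Q hU, eventually_ge_atTop 1]
    with n h1 h7 x s hxl hs hs1 hD hD4 m σ N l hσ hm1 hm2 hl hlN R hR
  have hn1 : (1 : ℝ) ≤ n := by exact_mod_cast h7
  have hn0 : (0 : ℝ) < n := by linarith
  have hx0 : 0 < x := (Real.rpow_pos_of_pos hn0 _).trans_le hxl
  obtain ⟨θ, E, S, hA, hK, hx8⟩ := h1 x s hxl hs hs1 hD hD4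
  have hcv := cv_lz (β / √n) (SkS (n := n))
  have h0N : 0 < N := by omega
  have hm00 : 0 < m 0 := lt_of_lt_of_le (by linarith) (hm1 0 h0N)
  have hM : ∀ j < N, ups m 0 (m 0) j ≤ 2 * x := by
    intro j hj
    rcases Nat.eq_zero_or_pos j with he | he
    · subst he
      rw [ups_zero]
      have := hm2 0 h0N
      linarith
    · rw [ups_ne he]
      have := hm2 j hj
      linarith
  have key := size_prob (D := Dz (β / √n)) (mu := x / 8) (h := m 0) (l := l) (Rr := R)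
    (K := Q * Real.log n) (c11_lz (β / √n) (SkS (n := n))) hcv (hA σ N hσ)
    (fun j hj => hx8.trans (hm1 j hj)) hM hm00.le (by positivity)
    (fun j _ hj => hm1 j hj) hl hlN (mul_nonneg hQ (Real.log_nonneg hn1)) (by
      have h2 := hK (Q * Real.log n) le_rfl
      have e1 : Q * Real.log n / (x / 8) = 8 * (Q * Real.log n) / x := by field_simp
      rw [e1]
      linarith)
  refine key.trans (le_of_eq ?_)
  rw [Real.rpow_def_of_pos hn0]
  congr 1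
  ring

/-- **Constant exponents**: `P(|∇|² ≥ R) ≤ n^(-Q)` at every position, as soon as
`D(2x, s) + n^(-c) D(x, s) + 8 Q log n / x < D(x, s) + (x/4) σ₀² R`. -/
theorem size_plain {β a0 e κ γ c : ℝ} (hβ : 0 < β) (he : 0 < e) (hc0 : 0 ≤ c)
    (hγ : 0 ≤ γ) (hκ : γ + 2 * c < κ) {Q : ℝ} (hQ : 0 ≤ Q) (hU : H695.UpM β a0) :
    ∀ᶠ n : ℕ in atTop, ∀ x s : ℝ, (n : ℝ) ^ (-(1 / 6) + e) ≤ x → 0 ≤ s → s ≤ 1 →
      (n : ℝ) ^ (1 / 6 + κ) ≤ Dn n β x s → Dn n β (4 * x) s ≤ (n : ℝ) ^ γ * Dn n β x s →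
      ∀ (σ : ℕ → ℝ) (N l : ℕ), 1 - tB σ N = s → 0 < l → l ≤ N → ∀ R : ℝ,
        Dn n β (2 * x) s + (n : ℝ) ^ (-c) * Dn n β x s + 8 * (Q * Real.log n) / x <
          Dn n β x s + x / 4 * (σ 0 ^ 2 * R) →
        PE (lz (β / √n) (SkS (n := n))) (fun _ => x) σ N l
          {z | R ≤ gD (lz (β / √n) (SkS (n := n))) (Dz (β / √n)) (fun _ => x) σ l z} ≤
            (n : ℝ) ^ (-Q) := by
  filter_upwards [size_numD hβ he hc0 hγ hκ hQ hU, eventually_ge_atTop 1]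
    with n h1 h7 x s hxl hs hs1 hD hD4 σ N l hσ hl hlN R hR
  have hn1 : (1 : ℝ) ≤ n := by exact_mod_cast h7
  have hn0 : (0 : ℝ) < n := by linarith
  have hx0 : 0 < x := (Real.rpow_pos_of_pos hn0 _).trans_le hxl
  have h11 := c11_lz (β / √n) (SkS (n := n))
  refine h1 x s hxl hs hs1 hD hD4 (fun _ => x) σ N l hσ (fun _ _ => by linarith)
    (fun _ _ => le_rfl) hl hlN R ?_
  have hm : ∀ j < N, 0 < (fun _ : ℕ => x) j := fun _ _ => hx0
  have hM' : ∀ j < N, ups (fun _ => x) 0 x j ≤ (fun _ : ℕ => 2 * x) j := by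
    intro j hj
    simp only
    rcases Nat.eq_zero_or_pos j with he | he
    · subst he
      rw [ups_zero]
      linarith
    · rw [ups_ne he]
      linarith
  have hP1 := PF_mono (σ := σ) h11 (ups_pos hm hx0.le) hM'
  rw [PF_const h11 (by positivity), hσ] at hP1
  have hP2 := PF_const (σ := σ) (N := N) h11 hx0
  rw [hσ] at hP2
  have e1 : DD (2 * x) s (lz (β / √n) (SkS (n := n))) = Dn n β (2 * x) s := rfl
  have e2 : DD x s (lz (β / √n) (SkS (n := n))) = Dn n β x s := rfl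
  rw [e1] at hP1
  rw [e2] at hP2
  rw [hP2]
  linarith

end Vale.Agent.P146.H698
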