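import Vale.Agent.P146.H698.Size4
import Vale.Agent.P146.H698.Size5
import Vale.Agent.P146.H946.EnC

/-!
# P146: the sizes in the letters of the layered law over a late time

`pB S w m σ (N+1) (√t0) Nb t` (the probability of `|C_t|² > Nb` in the law with the window
`[w, t]` and the lower layers `m 0, …, m N = 0`) is a probability of the profile
`(x, x, m 0, …, m (N-1))`; `pB_reg`: at a regular exponent it is at most `n^(-Q)`.
-/

open MeasureTheory ProbabilityTheory Filter Topology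

namespace Vale.Agent.P146.H698

open Vale.Agent.P157.Lv Vale.Agent.P146.H425 Vale.Agent.P146.R1
  Vale.Agent.P146.H332 Vale.Agent.P146.H325 Vale.Agent.P146.R1S
open Vale.Agent.P146.H785 Vale.Agent.P146.H767
open Vale.Agent.P146.H432 (Dn Gn Lg AntiN ev_small ev_big)
open Vale.Agent.P146.H946 (Dz)

set_option linter.unusedSectionVars false

section gen

variable {κ : Type} [Fintype κ] {F U φ : (κ → ℝ) → ℝ} {D : κ → (κ → ℝ) → ℝ}
  {B L x a b c t0 : ℝ} {m σ : ℕ → ℝ} {N : ℕ}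

/-- one more top layer -/
def cs (a : ℝ) (m : ℕ → ℝ) : ℕ → ℝ
  | 0 => a
  | j + 1 => m j

lemma FD_cs (F : (κ → ℝ) → ℝ) (a b : ℝ) (m σ : ℕ → ℝ) :
    ∀ i, FD F (cs a m) (cs b σ) (i + 1) = FD (W a b F) m σ i
  | 0 => rfl
  | i + 1 => by
    show W (m i) (σ i) (FD F (cs a m) (cs b σ) (i + 1)) = W (m i) (σ i) (FD (W a b F) m σ i)
    rw [FD_cs F a b m σ i]

lemma TD_cs (F : (κ → ℝ) → ℝ) (a b : ℝ) (m σ : ℕ → ℝ) (φ : (κ → ℝ) → ℝ) :
    ∀ i, TD F (cs a m) (cs b σ) φ (i + 1) = TD (W a b F) m σ (Ax a b F φ) i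
  | 0 => rfl
  | i + 1 => by
    show Ax (m i) (σ i) (FD F (cs a m) (cs b σ) (i + 1)) (TD F (cs a m) (cs b σ) φ (i + 1)) =
      Ax (m i) (σ i) (FD (W a b F) m σ i) (TD (W a b F) m σ (Ax a b F φ) i)
    rw [FD_cs F a b m σ i, TD_cs F a b m σ φ i]

lemma tB_cs (b : ℝ) (σ : ℕ → ℝ) (N : ℕ) : tB (cs b σ) (N + 1) = tB σ N - b ^ 2 := by
  unfold H767.tB
  rw [Finset.sum_range_succ']
  simp only [cs]
  ring

/-- the probability of the position below the top layer -/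
lemma EP_cs (F : (κ → ℝ) → ℝ) (a b : ℝ) (m σ : ℕ → ℝ) (φ : (κ → ℝ) → ℝ) (N : ℕ) :
    EP F (cs a m) (cs b σ) (N + 1) 1 φ =
      ∫ z, TD (W a b F) m σ φ N (√(tB (cs b σ) (N + 1)) • z) ∂(gI κ) := by
  have e1 : (fun j => cs a m (1 + j)) = m := funext fun j => by rw [add_comm]; rfl
  have e2 : (fun j => cs b σ (1 + j)) = σ := funext fun j => by rw [add_comm]; rfl
  unfold EP oD
  rw [e1, e2, Nat.add_sub_cancel]
  rfl

/-- a layer with exponent `0` is a Gaussian mean -/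
lemma Ax_0 (s : ℝ) (F φ : (κ → ℝ) → ℝ) (z : κ → ℝ) :
    Ax 0 s F φ z = ∫ g, φ (z + s • g) ∂(gI κ) := by
  unfold Ax
  simp

/-- the outermost layer with exponent `0` is part of the base -/
lemma last_zero (hm : m N = 0) (h0 : 0 ≤ t0) (hE : EG (TD U m σ φ N)) :
    ∫ g, TD U m σ φ (N + 1) (√t0 • g) ∂(gI κ) =
      ∫ g, TD U m σ φ N (√(t0 + σ N ^ 2) • g) ∂(gI κ) := by
  have e : ∀ g : κ → ℝ, TD U m σ φ (N + 1) (√t0 • g) =
      ∫ w, TD U m σ φ N (√t0 • g + σ N • w) ∂(gI κ) := fun g => by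
    show Ax (m N) (σ N) (FD U m σ N) (TD U m σ φ N) (√t0 • g) = _
    rw [hm, Ax_0]
  simp_rw [e]
  refine base_rot hE ?_
  rw [Real.sq_sqrt h0, Real.sq_sqrt (by positivity)]

/-- more outer layers -/
lemma PF_add_le (h : C11 F D B L) (hm : ∀ i < N, 0 < m i) (ht : 0 ≤ tB σ N) {M : ℕ}
    (hMN : M ≤ N) : PF F m σ M ≤ PF F m σ N := by
  obtain ⟨j, rfl⟩ := Nat.exists_eq_add_of_le hMN
  clear hMN
  induction j with
  | zero => exact le_rfl
  | succ j ih =>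
    have h1 : tB σ (M + (j + 1)) = tB σ (M + j) - σ (M + j) ^ 2 := tB_succ σ (M + j)
    refine (ih (fun i hi => hm i (by omega)) ?_).trans (PF_add h hm ht)
    have := sq_nonneg (σ (M + j))
    linarith

end gen

section sk

variable {n : ℕ} {k x : ℝ} {S : CS n k x} {w t t0 Nb : ℝ} {m σ : ℕ → ℝ} {N : ℕ}

/-- `pB` as a probability of the profile `(x, x, m 0, …)`. -/
theorem pB_eq (h1 : w ≤ t) (h2 : t ≤ 1) (hm : ∀ j < N, 0 < m j) (hN : m N = 0) (h0 : 0 ≤ t0)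
    (hw : tB σ N - σ N ^ 2 - t0 = 1 - w) :
    H946.En2.pB S w m σ (N + 1) (√t0) Nb t =
      EP S.F (cs x (cs x m)) (cs (√(1 - t)) (cs (√(t - w)) σ)) (N + 2) 1
        (H946.En2.bd S Nb t) := by
  have hx := S.x0
  have hm' : H693.Pm m N := fun j hj => hm j (by omega)
  have hT : tB (cs (√(1 - t)) (cs (√(t - w)) σ)) (N + 2) = t0 + σ N ^ 2 := by
    rw [tB_cs, tB_cs, Real.sq_sqrt (by linarith), Real.sq_sqrt (by linarith)]
    linarith
  rw [EP_cs, hT, show N + 1 = N + 1 from rfl]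
  have e1 : W x (√(1 - t)) S.F = uu x t S.F := rfl
  rw [e1]
  have e2 : TD (uu x t S.F) (cs x m) (cs (√(t - w)) σ) (H946.En2.bd S Nb t) (N + 1) =
      TD (uu x w S.F) m σ (H693.Aw S w t (H946.En2.bd S Nb t)) N := by
    rw [TD_cs]
    have e3 : W x (√(t - w)) (uu x t S.F) = uu x w S.F :=
      funext fun z => (H693.uu_tw S h1 h2 z).symm
    rw [e3]
    rfl
  rw [e2]
  have hE : EG (TD (uu x w S.F) m σ (H693.Aw S w t (H946.En2.bd S Nb t)) N) :=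
    H693.eg_TP (H693.hU (S := S) (t2 := w)) (H693.eg_Aw S w t (H946.En2.eg_bd S Nb t)) N hm'
  rw [← last_zero hN h0 hE]
  rfl

lemma bm_bd (S : CS n k x) (Nb t : ℝ) : Bm (H946.En2.bd S Nb t) := by
  refine ⟨(H946.En2.eg_bd S Nb t).meas, 1, fun u => ?_⟩
  unfold H946.En2.bd
  split_ifs <;> simp

/-- `pB` in terms of the squared gradient -/
theorem pB_le_PE (h1 : w ≤ t) (h2 : t ≤ 1) (hm : ∀ j < N, 0 < m j) (hN : m N = 0) (h0 : 0 ≤ t0)
    (hw : tB σ N - σ N ^ 2 - t0 = 1 - w) {R : ℝ} (hR : R ≤ k ^ 2 / 2 * (Nb - n)) :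
    H946.En2.pB S w m σ (N + 1) (√t0) Nb t ≤
      PE S.F (cs x (cs x m)) (cs (√(1 - t)) (cs (√(t - w)) σ)) (N + 2) 1
        {z | R ≤ gD S.F S.D (cs x (cs x m)) (cs (√(1 - t)) (cs (√(t - w)) σ)) 1 z} := by
  have hx := S.x0
  have hm2 : ∀ j < N + 2, 0 < cs x (cs x m) j := fun j hj => by
    match j, hj with
    | 0, _ => exact hx
    | 1, _ => exact hx
    | j + 2, hj => exact hm j (by omega)
  rw [pB_eq h1 h2 hm hN h0 hw]
  have b1 : Bm (gD S.F S.D (cs x (cs x m)) (cs (√(1 - t)) (cs (√(t - w)) σ)) 1) :=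
    bm_gD S.c11 fun j hj => hm2 j (by omega)
  refine EP_mono S.c11 hm2 (by omega) (bm_bd S Nb t)
    (bm_ind (measurableSet_le measurable_const b1.1)) fun u => ?_
  unfold H946.En2.bd
  split_ifs with h
  · by_cases hu : u ∈ {z | R ≤ gD S.F S.D (cs x (cs x m)) (cs (√(1 - t)) (cs (√(t - w)) σ)) 1 z}
    · rw [Set.indicator_of_mem hu]; norm_num
    · rw [Set.indicator_of_notMem hu]
  · have e1 : gD S.F S.D (cs x (cs x m)) (cs (√(1 - t)) (cs (√(t - w)) σ)) 1 u =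
        R1.sq x t S.F S.D u := rfl
    have hu : u ∈ {z | R ≤ gD S.F S.D (cs x (cs x m)) (cs (√(1 - t)) (cs (√(t - w)) σ)) 1 z} := by
      show R ≤ gD S.F S.D (cs x (cs x m)) (cs (√(1 - t)) (cs (√(t - w)) σ)) 1 u
      rw [e1, S.sq_A]
      refine hR.trans (mul_le_mul_of_nonneg_left ?_ (by positivity))
      linarith [not_le.1 h]
    rw [Set.indicator_of_mem hu]

/-- the lower bound of the profile functional by its top piece -/
lemma PF_top (h1 : w ≤ t) (h2 : t ≤ 1) (hm : ∀ j < N, 0 < m j)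
    (hT : 0 ≤ tB (cs (√(1 - t)) (cs (√(t - w)) σ)) (N + 2)) :
    DD x (1 - w) S.F + ∫ z, S.F z ∂(gI (Pair n)) ≤
      PF S.F (cs x (cs x m)) (cs (√(1 - t)) (cs (√(t - w)) σ)) (N + 2) := by
  have hx := S.x0
  have hm2 : ∀ j < N + 2, 0 < cs x (cs x m) j := fun j hj => by
    match j, hj with
    | 0, _ => exact hx
    | 1, _ => exact hx
    | j + 2, hj => exact hm j (by omega)
  have e0 : tB (cs (√(1 - t)) (cs (√(t - w)) σ)) 2 = w := by
    rw [tB_cs, tB_cs, Real.sq_sqrt (by linarith), Real.sq_sqrt (by linarith), tB_zero]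
    ring
  have e1 : PF S.F (cs x (cs x m)) (cs (√(1 - t)) (cs (√(t - w)) σ)) 2 =
      PF S.F (fun _ => x) (cs (√(1 - t)) (cs (√(t - w)) σ)) 2 := rfl
  have e2 := PF_const (σ := cs (√(1 - t)) (cs (√(t - w)) σ)) (N := 2) S.c11 hx
  rw [e0] at e2
  rw [← e2, ← e1]
  exact PF_add_le S.c11 hm2 hT (by omega)

end sk

/-- **The sizes at a regular exponent in the letters of the layered law.** -/
theorem pB_reg {β a0 a e d w c c5 ch : ℝ} (hβ : 0 < β) (hU : H695.UpM β a0) (haa : a0 < a)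
    (ha : 0 < a) (hd : 0 ≤ d) (hw : 0 ≤ w) (hc : 2 * (d + w) + 2 * c < 5 * e) (h5 : 0 < c5)
    (hc5 : c5 < c) (hch : c5 < ch) (h6e : d + w + c5 < 6 * e) {Q : ℝ} (hQ : 0 ≤ Q) :
    ∀ᶠ n : ℕ in atTop, AntiN n β → ∀ x s τ : ℝ, (n : ℝ) ^ (-(1 / 6) + e) ≤ x →
      x ≤ (n : ℝ) ^ (-a) → (n : ℝ) ^ (-w) * x ^ 2 ≤ s → 0 ≤ τ → τ ≤ (n : ℝ) ^ (-ch) * s →
      s + τ ≤ 1 → (n : ℝ) ^ (1 - d) * s * x ^ 3 ≤ Dn n β x s → Dn n β x s ≤ x * Gn n β x s →
      Gn n β ((1 + (n : ℝ) ^ (-c5)) * x) s ≤ 2 * Gn n β x s →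
      ∀ S : CS n (β / √n) x, S.F = lz (β / √n) SkS → S.D = Dz (β / √n) →
      ∀ (m σ : ℕ → ℝ) (N : ℕ) (t t0 Nb : ℝ), 0 ≤ t0 → 1 - s ≤ t → t < 1 → tB σ N = 1 - τ →
        σ N ^ 2 + t0 = 1 - s - τ → (∀ j < N, x / 8 ≤ m j) → (∀ j < N, m j ≤ x) → m N = 0 →
        n + 32 * n * Gn n β x s / (β ^ 2 * (1 - t)) ≤ Nb →
        H946.En2.pB S (1 - s) m σ (N + 1) (√t0) Nb t ≤ (n : ℝ) ^ (-Q) := by
  filter_upwards [size_reg hβ hU haa ha hd hw hc h5 hc5 hch h6e hQ, eventually_ge_atTop 1]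
    with n h1 hn1 hA x s τ hxl hxu hs hτ hτs hsτ hD hval hreg S hF hDz m σ N t t0 Nb h0 ht ht1
      hσ hσ2 hm1 hm2 hmN hNb
  have hn : (1 : ℝ) ≤ n := by exact_mod_cast hn1
  have hn0 : (0 : ℝ) < n := by linarith
  have hx := S.x0
  have hm : ∀ j < N, 0 < m j := fun j hj => lt_of_lt_of_le (by linarith) (hm1 j hj)
  have ht2 : 0 < 1 - t := by linarith
  have hk : (β / √n) ^ 2 = β ^ 2 / n := by
    rw [div_pow, Real.sq_sqrt hn0.le]
  have hT : tB (cs (√(1 - t)) (cs (√(t - (1 - s))) σ)) (N + 2) = 1 - (s + τ) := by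
    rw [tB_cs, tB_cs, Real.sq_sqrt ht2.le, Real.sq_sqrt (by linarith), hσ]
    ring
  have hR : 16 * Gn n β x s / (cs (√(1 - t)) (cs (√(t - (1 - s))) σ) 0) ^ 2 ≤
      (β / √n) ^ 2 / 2 * (Nb - n) := by
    have e0 : (cs (√(1 - t)) (cs (√(t - (1 - s))) σ) 0) ^ 2 = 1 - t := Real.sq_sqrt ht2.le
    rw [e0, hk]
    have e1 : 16 * Gn n β x s / (1 - t) =
        β ^ 2 / n / 2 * (32 * n * Gn n β x s / (β ^ 2 * (1 - t))) := by
      field_simp
      ring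
    rw [e1]
    exact mul_le_mul_of_nonneg_left (by linarith) (by positivity)
  have hP := pB_le_PE (S := S) (m := m) (σ := σ) (Nb := Nb) ht ht1.le hm hmN h0
    (by rw [hσ]; linarith) hR
  have hL := PF_top (S := S) (m := m) (σ := σ) (N := N) ht ht1.le hm (by rw [hT]; linarith)
  refine hP.trans ?_
  rw [hF] at hL
  rw [hF, hDz]
  have e3 : DD x (1 - (1 - s)) (lz (β / √n) (SkS (n := n))) = Dn n β x s := by
    rw [sub_sub_cancel]
    rfl
  rw [e3] at hL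
  refine h1 hA x s τ hxl hxu hs hτ hτs hsτ hD hval hreg _ _ (N + 2) 1 (by rw [hT]; ring) ?_ ?_
    rfl (Real.sqrt_pos.2 ht2).ne' hL one_pos (by omega)
  · intro j hj
    match j, hj with
    | 0, _ => show x / 8 ≤ x; linarith
    | 1, _ => show x / 8 ≤ x; linarith
    | j + 2, hj => exact hm1 j (by omega)
  · intro j hj
    match j, hj with
    | 0, _ => exact le_rfl
    | 1, _ => exact le_rfl
    | j + 2, hj => exact hm2 j (by omega)

end Vale.Agent.P146.H698
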