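import Vale.Agent.P146.H698.Size6
import Vale.Agent.P146.H522.TwoTop

/-!
# P146: the sizes at a regular point `Reg`

`gn_up`: the upper bound of the slope `Dₓ(x, s) ≤ n^(1+α) s x²` for windows `s ≥ n^(-w) x²`,
`w < α`; `pB_of_Reg`: `P(|C_t|² > Nb) ≤ n^(-Q)` at a regular point, for
`Nb ≥ n + 32 n Dₓ / (β² (1-t))`; `nb_up`: this number is at most `n^(2+α) x²`.
-/

open MeasureTheory ProbabilityTheory Filter Topology

namespace Vale.Agent.P146.H698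

open Vale.Agent.P157.Lv Vale.Agent.P146.H425 Vale.Agent.P146.R1
  Vale.Agent.P146.H332 Vale.Agent.P146.H325 Vale.Agent.P146.R1S
open Vale.Agent.P146.H785 Vale.Agent.P146.H767
open Vale.Agent.P146.H432 (Dn Gn Lg AntiN Gn_nonneg Gn_mono Dn_tan' Dn_nonneg ev_small ev_big)
open Vale.Agent.P146.H522 (Reg)
open Vale.Agent.P146.H946 (Dz)

set_option linter.unusedSectionVars false

/-- **The slope from above**, every window `s ≥ n^(-w) x²`. -/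
theorem gn_up {β a0 a e w α : ℝ} (hU : H695.UpM β a0) (haa : a0 < a) (he : 0 ≤ e)
    (hα : w < α) : ∀ᶠ n : ℕ in atTop, ∀ x s : ℝ, (n : ℝ) ^ (-(1 / 6) + e) ≤ x →
      x ≤ (n : ℝ) ^ (-a) → (n : ℝ) ^ (-w) * x ^ 2 ≤ s → s ≤ 1 →
      Gn n β x s ≤ (n : ℝ) ^ (1 + α) * s * x ^ 2 := by
  obtain ⟨ε, hεd⟩ : ∃ ε, ε = (α - w) / 2 := ⟨_, rfl⟩
  have hε : 0 < ε := by rw [hεd]; linarith
  filter_upwards [hU ε hε, ev_big (C := 2) (sub_pos.2 haa), ev_big (C := 32) hε,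
    eventually_ge_atTop 1] with n h1 h2 h3 h4 x s hxl hxu hs hs1
  have hn1 : (1 : ℝ) ≤ n := by exact_mod_cast h4
  have hn0 : (0 : ℝ) < n := by linarith
  have rpos : ∀ a : ℝ, 0 < (n : ℝ) ^ a := fun a => Real.rpow_pos_of_pos hn0 a
  have hx0 : 0 < x := (rpos _).trans_le hxl
  have hs0 : 0 < s := by
    have : 0 < (n : ℝ) ^ (-w) * x ^ 2 := mul_pos (rpos _) (pow_pos hx0 2)
    linarith
  have hx2 : (n : ℝ) ^ (-(1 / 6) : ℝ) ≤ 2 * x := by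
    have : (n : ℝ) ^ (-(1 / 6) : ℝ) ≤ (n : ℝ) ^ (-(1 / 6) + e) :=
      Real.rpow_le_rpow_of_exponent_le hn1 (by linarith)
    linarith
  have hx3 : 2 * x ≤ (n : ℝ) ^ (-a0) := by
    have e1 : (n : ℝ) ^ (-a0) = (n : ℝ) ^ (a - a0) * (n : ℝ) ^ (-a) := by
      rw [← Real.rpow_add hn0]
      congr 1
      ring
    rw [e1]
    exact mul_le_mul h2.le hxu hx0.le (by linarith)
  have k2 : Lg n β (2 * x) ≤ (n : ℝ) ^ (1 + ε) * (2 * x) ^ 6 := h1 (2 * x) hx2 hx3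
  have k3 := DD_le_W (c11_lz (β / √n) (SkS (n := n))) (x := 2 * x) (by positivity) hs0.le hs1
  rw [Lg_W n β (by positivity : 0 < 2 * x)] at k2
  have k4 := (mul_le_mul_of_nonneg_left k3 (by positivity : 0 ≤ 2 * x)).trans k2
  have e1 : (n : ℝ) ^ (1 + ε) * (2 * x) ^ 6 =
      2 * x * (32 * (n : ℝ) ^ (1 + ε) * x ^ 5) := by ring
  rw [e1] at k4
  have k5 : Dn n β (2 * x) s ≤ 32 * (n : ℝ) ^ (1 + ε) * x ^ 5 :=
    le_of_mul_le_mul_left k4 (by positivity)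
  have k6 := Dn_tan' n β hx0 (by positivity : 0 < 2 * x) hs0.le hs1
  have k7 := Dn_nonneg n β hx0 hs0.le hs1
  have k8 : x * Gn n β x s ≤ x * (32 * (n : ℝ) ^ (1 + ε) * x ^ 4) := by
    have e2 : x * (32 * (n : ℝ) ^ (1 + ε) * x ^ 4) = 32 * (n : ℝ) ^ (1 + ε) * x ^ 5 := by ring
    rw [e2]
    linarith
  have k9 := le_of_mul_le_mul_left k8 hx0
  have hxs : x ^ 2 ≤ (n : ℝ) ^ w * s := by
    have e3 : (n : ℝ) ^ w * ((n : ℝ) ^ (-w) * x ^ 2) = x ^ 2 := by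
      rw [← mul_assoc, ← Real.rpow_add hn0]
      simp
    rw [← e3]
    exact mul_le_mul_of_nonneg_left hs (rpos _).le
  calc Gn n β x s ≤ 32 * (n : ℝ) ^ (1 + ε) * x ^ 4 := k9
    _ = 32 * ((n : ℝ) ^ (1 + ε) * (x ^ 2 * x ^ 2)) := by ring
    _ ≤ (n : ℝ) ^ ε * ((n : ℝ) ^ (1 + ε) * (((n : ℝ) ^ w * s) * x ^ 2)) := by
        have := rpos (1 + ε)
        have := rpos w
        gcongr
    _ = (n : ℝ) ^ (1 + α) * s * x ^ 2 := by
        have e4 : (n : ℝ) ^ (1 + α) = (n : ℝ) ^ ε * (n : ℝ) ^ (1 + ε) * (n : ℝ) ^ w := by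
          rw [← Real.rpow_add hn0, ← Real.rpow_add hn0]
          congr 1
          rw [hεd]
          ring
        rw [e4]
        ring

/-- the slope from above at a regular point -/
theorem gn_up_Reg {β a0 e σ d w α : ℝ} (hU : H695.UpM β a0) (ha : a0 < 136 * σ) (he : 0 ≤ e)
    (hw : 0 ≤ w) (hσ : 0 < σ) (hα : w + σ < α) :
    ∀ᶠ n : ℕ in atTop, ∀ θ x s : ℝ, Reg n β e σ d w θ x s →
      Gn n β x s ≤ (n : ℝ) ^ (1 + α) * s * x ^ 2 := by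
  filter_upwards [gn_up (β := β) hU ha he hα, eventually_ge_atTop 1] with n h1 h2 θ x s hR
  have hn1 : (1 : ℝ) ≤ n := by exact_mod_cast h2
  have hx0 : 0 < x := (Real.rpow_pos_of_pos (by linarith) _).trans_le hR.x_lo
  have hx1 : x ≤ 1 := hR.x_up.trans (Real.rpow_le_one_of_one_le_of_nonpos hn1 (by linarith))
  refine h1 x s hR.x_lo hR.x_up hR.s_lo (hR.s_up.trans ?_)
  have h3 : (n : ℝ) ^ (-w) ≤ 1 := Real.rpow_le_one_of_one_le_of_nonpos hn1 (by linarith)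
  exact mul_le_one₀ h3 (by positivity) (pow_le_one₀ hx0.le hx1)

/-- the number of the sizes over late times, `1 - t ≥ n^(-c3) s` -/
theorem nb_up {β a0 e σ d w α c3 : ℝ} (hβ : 0 < β) (hU : H695.UpM β a0) (ha : a0 < 136 * σ)
    (he : 0 ≤ e) (hw : 0 ≤ w) (hσ : 0 < σ) (hc3 : 0 ≤ c3) (hα : w + σ + c3 < α) :
    ∀ᶠ n : ℕ in atTop, ∀ θ x s t : ℝ, Reg n β e σ d w θ x s → (n : ℝ) ^ (-c3) * s ≤ 1 - t →
      n + 32 * n * Gn n β x s / (β ^ 2 * (1 - t)) ≤ (n : ℝ) ^ (2 + α) * x ^ 2 := by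
  obtain ⟨ε, hεd⟩ : ∃ ε, ε = (α - c3 - w - σ) / 2 := ⟨_, rfl⟩
  have hε : 0 < ε := by rw [hεd]; linarith
  filter_upwards [gn_up_Reg (β := β) (d := d) (α := w + σ + ε) hU ha he hw hσ (by linarith),
    ev_big (C := 64 / β ^ 2) hε, ev_big (C := 2) hε,
    eventually_ge_atTop 1] with n h1 h2 h3 h4 θ x s t hR ht
  have hn1 : (1 : ℝ) ≤ n := by exact_mod_cast h4
  have hn0 : (0 : ℝ) < n := by linarith
  have rpos : ∀ a : ℝ, 0 < (n : ℝ) ^ a := fun a => Real.rpow_pos_of_pos hn0 a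
  have hx0 : 0 < x := (rpos _).trans_le hR.x_lo
  have hs0 : 0 < s := by
    have : 0 < (n : ℝ) ^ (-(w + σ)) * x ^ 2 := mul_pos (rpos _) (pow_pos hx0 2)
    linarith [hR.s_lo]
  have hT : 0 < 1 - t := lt_of_lt_of_le (mul_pos (rpos _) hs0) ht
  have hG := h1 θ x s hR
  have a1 : 32 * n * Gn n β x s / (β ^ 2 * (1 - t)) ≤
      32 / β ^ 2 * ((n : ℝ) ^ (2 + α - ε) * x ^ 2) := by
    rw [div_le_iff₀ (by positivity)]
    have e1 : (n : ℝ) ^ (2 + α - ε) = n * (n : ℝ) ^ (1 + (w + σ + ε)) * (n : ℝ) ^ c3 := by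
      nth_rewrite 2 [← Real.rpow_one (n : ℝ)]
      rw [← Real.rpow_add hn0, ← Real.rpow_add hn0]
      congr 1
      rw [hεd]
      ring
    have e2 : (n : ℝ) ^ c3 * ((n : ℝ) ^ (-c3) * s) = s := by
      rw [← mul_assoc, ← Real.rpow_add hn0]
      simp
    have a2 : s ≤ (n : ℝ) ^ c3 * (1 - t) := by
      rw [← e2]
      exact mul_le_mul_of_nonneg_left ht (rpos _).le
    calc 32 * n * Gn n β x s ≤ 32 * n * ((n : ℝ) ^ (1 + (w + σ + ε)) * s * x ^ 2) := by gcongr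
      _ ≤ 32 * n * ((n : ℝ) ^ (1 + (w + σ + ε)) * ((n : ℝ) ^ c3 * (1 - t)) * x ^ 2) := by
          have := rpos (1 + (w + σ + ε))
          gcongr
      _ = 32 / β ^ 2 * ((n : ℝ) ^ (2 + α - ε) * x ^ 2) * (β ^ 2 * (1 - t)) := by
          rw [e1]
          field_simp
  have a3 : 32 / β ^ 2 * ((n : ℝ) ^ (2 + α - ε) * x ^ 2) ≤ (n : ℝ) ^ (2 + α) * x ^ 2 / 2 := by
    have e3 : (n : ℝ) ^ (2 + α) = (n : ℝ) ^ ε * (n : ℝ) ^ (2 + α - ε) := by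
      rw [← Real.rpow_add hn0]
      congr 1
      ring
    rw [e3]
    have a4 := mul_le_mul_of_nonneg_right h2.le
      (by have := rpos (2 + α - ε); positivity : 0 ≤ (n : ℝ) ^ (2 + α - ε) * x ^ 2 / 2)
    calc 32 / β ^ 2 * ((n : ℝ) ^ (2 + α - ε) * x ^ 2) =
          64 / β ^ 2 * ((n : ℝ) ^ (2 + α - ε) * x ^ 2 / 2) := by ring
      _ ≤ _ := a4
      _ = _ := by ring
  have a5 : (n : ℝ) ≤ (n : ℝ) ^ (2 + α) * x ^ 2 / 2 := by
    have a6 : (n : ℝ) ^ (-(1 / 3) : ℝ) ≤ x ^ 2 := by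
      have a7 : (n : ℝ) ^ (-(1 / 6) : ℝ) ≤ x := by
        refine le_trans ?_ hR.x_lo
        exact Real.rpow_le_rpow_of_exponent_le hn1 (by linarith)
      have e4 : (n : ℝ) ^ (-(1 / 3) : ℝ) = ((n : ℝ) ^ (-(1 / 6) : ℝ)) ^ 2 := by
        rw [← Real.rpow_natCast, ← Real.rpow_mul hn0.le]
        norm_num
      rw [e4]
      have := rpos (-(1 / 6) : ℝ)
      gcongr
    have a8 : (2 : ℝ) * n ≤ (n : ℝ) ^ (2 + α) * (n : ℝ) ^ (-(1 / 3) : ℝ) := by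
      rw [← Real.rpow_add hn0]
      calc (2 : ℝ) * n ≤ (n : ℝ) ^ ε * (n : ℝ) ^ (1 : ℝ) := by
            rw [Real.rpow_one]
            exact mul_le_mul_of_nonneg_right h3.le hn0.le
        _ = (n : ℝ) ^ (ε + 1) := by rw [← Real.rpow_add hn0]
        _ ≤ _ := Real.rpow_le_rpow_of_exponent_le hn1 (by linarith)
    have a9 : (n : ℝ) ^ (2 + α) * (n : ℝ) ^ (-(1 / 3) : ℝ) ≤ (n : ℝ) ^ (2 + α) * x ^ 2 :=
      mul_le_mul_of_nonneg_left a6 (rpos _).le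
    linarith
  linarith

/-- **The sizes at a regular point in the letters of the layered law.** -/
theorem pB_of_Reg {β a0 e σ d w : ℝ} (hβ : 0 < β) (hU : H695.UpM β a0) (ha : a0 < 136 * σ)
    (hσ : 0 < σ) (hd : 0 ≤ d) (hw : 0 ≤ w) (hc : 2 * (d + w) + 150 * σ < 5 * e) {Q : ℝ}
    (hQ : 0 ≤ Q) :
    ∀ᶠ n : ℕ in atTop, AntiN n β → ∀ θ x s τ : ℝ, θ ≤ 1 → Reg n β e σ d w θ x s → 0 ≤ τ →
      τ ≤ (n : ℝ) ^ (-(73 * σ)) * s →
      ∀ S : CS n (β / √n) x, S.F = lz (β / √n) SkS → S.D = Dz (β / √n) →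
      ∀ (m ς : ℕ → ℝ) (N : ℕ) (t t0 Nb : ℝ), 0 ≤ t0 → 1 - s ≤ t → t < 1 → tB ς N = 1 - τ →
        ς N ^ 2 + t0 = 1 - s - τ → (∀ j < N, x / 8 ≤ m j) → (∀ j < N, m j ≤ x) → m N = 0 →
        n + 32 * n * Gn n β x s / (β ^ 2 * (1 - t)) ≤ Nb →
        H946.En2.pB S (1 - s) m ς (N + 1) (√t0) Nb t ≤ (n : ℝ) ^ (-Q) := by
  have he : 0 < e := by linarith
  filter_upwards [pB_reg (a := 136 * σ) (e := e) (d := d + σ) (w := w + σ) (c := 73 * σ) (c5 := 72 * σ)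
      (ch := 73 * σ) hβ hU ha (by linarith) (by linarith) (by linarith) (by linarith)
      (by linarith) (by linarith) (by linarith) (by linarith) hQ,
    ev_small (a := 136 * σ) (δ := 1 / 2) (by linarith) (by norm_num),
    ev_small (a := 72 * σ) (δ := 1 / 2) (by linarith) (by norm_num), eventually_ge_atTop 1]
    with n h1 h2 h0 h3 hA θ x s τ hθ hR hτ hτs
  have hn1 : (1 : ℝ) ≤ n := by exact_mod_cast h3
  have hn0 : (0 : ℝ) < n := by linarith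
  have rpos : ∀ a : ℝ, 0 < (n : ℝ) ^ a := fun a => Real.rpow_pos_of_pos hn0 a
  have hx0 : 0 < x := (rpos _).trans_le hR.x_lo
  have hx1 : x ≤ 1 / 2 := hR.x_up.trans h2.le
  have hs0 : 0 < s := by
    have : 0 < (n : ℝ) ^ (-(w + σ)) * x ^ 2 := mul_pos (rpos _) (pow_pos hx0 2)
    linarith [hR.s_lo]
  have hs1 : s ≤ 1 / 4 := by
    have h4 : (n : ℝ) ^ (-w) ≤ 1 := Real.rpow_le_one_of_one_le_of_nonpos hn1 (by linarith)
    have h5 : x ^ 2 ≤ 1 / 4 := by nlinarith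
    calc s ≤ (n : ℝ) ^ (-w) * x ^ 2 := hR.s_up
      _ ≤ 1 * (1 / 4) := mul_le_mul h4 h5 (by positivity) (by norm_num)
      _ = 1 / 4 := by norm_num
  have hτ1 : τ ≤ s := by
    have h4 : (n : ℝ) ^ (-(73 * σ)) ≤ 1 :=
      Real.rpow_le_one_of_one_le_of_nonpos hn1 (by linarith)
    have := mul_le_mul_of_nonneg_right h4 hs0.le
    linarith
  have hG0 := Gn_nonneg n β hx0 hs0.le
  have hη : (n : ℝ) ^ (-(72 * σ)) ≤ 1 / 2 := h0.le
  have hreg : Gn n β ((1 + (n : ℝ) ^ (-(72 * σ))) * x) s ≤ 2 * Gn n β x s := by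
    have h4 : Gn n β ((1 - (n : ℝ) ^ (-(72 * σ))) * x) s ≤ Gn n β x s := by
      refine Gn_mono n β (mul_pos (by linarith) hx0) ?_ hs0.le (by linarith)
      have := rpos (-(72 * σ))
      nlinarith
    have h5 : 1 + (n : ℝ) ^ (-(10 * σ)) ≤ 2 := by
      have := Real.rpow_le_one_of_one_le_of_nonpos hn1 (by linarith : -(10 * σ) ≤ 0)
      linarith
    refine hR.reg.trans ?_
    have h6 := rpos (-(10 * σ))
    have h7 : 0 ≤ Gn n β ((1 - (n : ℝ) ^ (-(72 * σ))) * x) s :=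
      Gn_nonneg n β (mul_pos (by linarith) hx0) hs0.le
    calc (1 + (n : ℝ) ^ (-(10 * σ))) * Gn n β ((1 - (n : ℝ) ^ (-(72 * σ))) * x) s ≤
          2 * Gn n β ((1 - (n : ℝ) ^ (-(72 * σ))) * x) s := mul_le_mul_of_nonneg_right h5 h7
      _ ≤ _ := by linarith
  have hval : Dn n β x s ≤ x * Gn n β x s := by
    refine hR.val.trans ?_
    have := mul_le_mul_of_nonneg_right hθ (mul_nonneg hx0.le hG0)
    linarith
  intro S hF hD m ς N t t0 Nb b1 b2 b3 b4 b5 b6 b7 b8 b9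
  exact h1 hA x s τ hR.x_lo hR.x_up hR.s_lo hτ hτs (by linarith) hR.low hval hreg S hF hD m ς N t
    t0 Nb b1 b2 b3 b4 b5 b6 b7 b8 b9

end Vale.Agent.P146.H698
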