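import Vale.Agent.P146.H698.Size7
import Vale.Agent.P146.H713.Dic3
import Vale.Agent.P146.H561.F2All

/-!
# P146: the sizes in the letters of the two-layer law `EwG q GTwo F`

`EwG_bd2`, `EwG_bd3`: the probabilities of `|C_{s1}|² > Nb`, `|C_{s2}|² > Nb` as numbers `pB`;
`EwG_Reg`: at a regular point they are at most `n^(-Q)`; `hB_Reg`: the rare set of
`F2Data`.
-/

open MeasureTheory ProbabilityTheory Filter Topology

namespace Vale.Agent.P146.H698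

open Vale.Agent.P157.Lv Vale.Agent.P146.H425 Vale.Agent.P146.R1 Vale.Agent.P146.R1C
  Vale.Agent.P146.H332 Vale.Agent.P146.H325 Vale.Agent.P146.R1S Vale.Agent.P146.H712
open Vale.Agent.P146.H785 Vale.Agent.P146.H767
open Vale.Agent.P146.H432 (Dn Gn Lg AntiN Gn_nonneg Gn_mono Dn_tan' Dn_nonneg ev_small ev_big)
open Vale.Agent.P146.H522 (Reg nf nf_sq nf_nonneg)
open Vale.Agent.P146.H946 (Dz)
open Vale.Agent.P146.H946.En2 (pB bd eg_bd bd_nonneg)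
open Vale.Agent.P146.H693 (Tm)
open Vale.Agent.P146.H655 (E1 E1_tower E1_mono)
open Vale.Agent.P146.H713.En2 (Stk stk3 EwG_sum)
open Vale.Agent.P146.H191 (Im)
open Vale.Agent.P146.H561 (bb)

set_option linter.unusedSectionVars false

section law

variable {n : ℕ} {k : ℝ} {q : Par} {S : CS n k q.x} {y l : ℝ} {m σ : ℕ → ℝ}

/-- the size at the first late time -/
theorem EwG_bd2 (hT : Tm q y l) (hs : Stk q y l m σ) (Nb : ℝ) :
    EwG q (R1C.GTwo q y l S.F S.D) S.F (fun w => bd S Nb q.s1 (P2 q w)) =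
      pB S q.t1 m σ 2 (√q.t0) Nb q.s1 := by
  have h := EwG_sum (S := S) hT hs ({()} : Finset Unit) (a := fun _ _ => 1)
    (χ := fun _ => bd S Nb q.s1) (φ := fun _ _ => 1) (fun _ _ => EG.const 1)
    (fun _ _ => eg_bd S Nb q.s1) (fun _ _ => EG.const 1)
  have e1 : H693.Aw S q.s1 q.s2 (fun _ => (1 : ℝ)) = fun _ => 1 :=
    funext fun u => H693.Aw_const S q.s1 q.s2 1 u
  simp only [Finset.sum_singleton, one_mul, mul_one, e1] at h
  exact h

/-- the size at the second late time -/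
theorem EwG_bd3 (hT : Tm q y l) (hs : Stk q y l m σ) (Nb : ℝ) :
    EwG q (R1C.GTwo q y l S.F S.D) S.F (fun w => bd S Nb q.s2 (P3 q w)) =
      pB S q.t1 m σ 2 (√q.t0) Nb q.s2 := by
  have h := EwG_sum (S := S) hT hs ({()} : Finset Unit) (a := fun _ _ => 1)
    (χ := fun _ _ => 1) (φ := fun _ => bd S Nb q.s2) (fun _ _ => EG.const 1)
    (fun _ _ => EG.const 1) (fun _ _ => eg_bd S Nb q.s2)
  simp only [Finset.sum_singleton, one_mul] at h
  rw [h]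
  unfold pB
  refine integral_congr_ae (Filter.Eventually.of_forall fun g => ?_)
  exact (E1_tower hT.h1 hT.h2 hT.h3 (eg_bd S Nb q.s2) _).symm

/-- the rare set of large matrices, in the law -/
theorem Im_bb_le (hT : Tm q y l) (hs : Stk q y l m σ) {R : ℝ} (hR : 0 ≤ R)
    {A C : (K4 (Pair n) → ℝ) → Matrix (Fin n) (Fin n) ℝ} (hA : ∀ w, A w = S.A q.s1 (P2 q w))
    (hC : ∀ w, C w = S.A q.s2 (P3 q w)) :
    Im (densG q (R1C.GTwo q y l S.F S.D) S.F) (fun w => bb R (A w) (C w)) ≤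
      pB S q.t1 m σ 2 (√q.t0) (R ^ 2) q.s1 + pB S q.t1 m σ 2 (√q.t0) (R ^ 2) q.s2 := by
  have hG : (R1C.GTwo q y l S.F S.D).Ok := R1C.GTwo_ok S.c11 S.x0 hT.hy l
  have eA : ∀ i j, EG fun w => A w i j := fun i j => by
    simp only [hA]
    exact eg_P2 (S.eg_A q.s1 i j)
  have eC : ∀ i j, EG fun w => C w i j := fun i j => by
    simp only [hC]
    exact eg_P3 (S.eg_A q.s2 i j)
  have e1 : EG fun w : K4 (Pair n) → ℝ => bd S (R ^ 2) q.s1 (P2 q w) := eg_P2 (eg_bd S _ _)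
  have e2 : EG fun w : K4 (Pair n) → ℝ => bd S (R ^ 2) q.s2 (P3 q w) := eg_P3 (eg_bd S _ _)
  rw [← EwG_bd2 hT hs, ← EwG_bd3 hT hs, ← R1C.EwG_add S.c11 S.x0 hG e1 e2]
  refine R1C.EwG_mono S.c11 S.x0 hG (H561.eg_bb eA eC) (e1.add e2) fun w => ?_
  have key : ∀ M : Matrix (Fin n) (Fin n) ℝ, ¬ nf M ≤ R → ¬ fr M ≤ R ^ 2 := by
    intro M h1 h2
    apply h1
    rw [← nf_sq] at h2
    exact abs_le_of_sq_le_sq' h2 hR |>.2
  have b1 := bd_nonneg (S := S) (R ^ 2) q.s1 (P2 q w)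
  have b2 := bd_nonneg (S := S) (R ^ 2) q.s2 (P3 q w)
  unfold bb
  split_ifs with h
  · linarith
  · rw [not_and_or, hA, hC] at h
    rcases h with h | h
    · have : bd S (R ^ 2) q.s1 (P2 q w) = 1 := by
        unfold H946.En2.bd
        rw [if_neg (key _ h)]
      linarith
    · have : bd S (R ^ 2) q.s2 (P3 q w) = 1 := by
        unfold H946.En2.bd
        rw [if_neg (key _ h)]
      linarith

end law

/-- **The sizes in the two-layer law at a regular point.** -/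
theorem pB_two {β a0 e σ d w : ℝ} (hβ : 0 < β) (hU : H695.UpM β a0) (ha : a0 < 136 * σ)
    (hσ : 0 < σ) (hd : 0 ≤ d) (hw : 0 ≤ w) (hc : 2 * (d + w) + 150 * σ < 5 * e) {Q : ℝ}
    (hQ : 0 ≤ Q) :
    ∀ᶠ n : ℕ in atTop, AntiN n β → ∀ θ x s : ℝ, θ ≤ 1 → Reg n β e σ d w θ x s →
      ∀ (q : Par) (y l : ℝ) (m ς : ℕ → ℝ) (S : CS n (β / √n) q.x), q.x = x → q.t1 = 1 - s →
      Tm q y l → Stk q y l m ς → x / 8 ≤ y → y ≤ x → l ≤ (n : ℝ) ^ (-(73 * σ)) * s →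
      S.F = lz (β / √n) SkS → S.D = Dz (β / √n) →
      ∀ t Nb : ℝ, q.t1 ≤ t → t < 1 → n + 32 * n * Gn n β x s / (β ^ 2 * (1 - t)) ≤ Nb →
        pB S q.t1 m ς 2 (√q.t0) Nb t ≤ (n : ℝ) ^ (-Q) := by
  filter_upwards [pB_of_Reg hβ hU ha hσ hd hw hc hQ] with n h1 hA θ x s hθ hR q y l m ς S hx ht1 hT
    hs hy1 hy2 hl hF hD t Nb ht ht' hNb
  subst hx
  have e0 := hs.m0
  have e1 := hs.m1
  have h2 := h1 hA θ q.x s l hθ hR hT.hl.le hl S hF hD m ς 1 t q.t0 Nb hT.ht0 (by rw [← ht1]; exact ht)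
    ht' ?_ ?_ ?_ ?_ e1 hNb
  · rw [ht1]
    exact h2
  · unfold H767.tB
    rw [Finset.sum_range_one, hs.σ0, Real.sq_sqrt hT.hl.le]
  · rw [hs.σ1, Real.sq_sqrt (by linarith [hT.ht]), ht1]
    ring
  · intro j hj
    have : j = 0 := by omega
    subst this
    rw [e0]
    exact hy1
  · intro j hj
    have : j = 0 := by omega
    subst this
    rw [e0]
    exact hy2

/-- **The rare set of `F2Data` at a regular point.** -/
theorem hB_Reg {β a0 e σ d w : ℝ} (hβ : 0 < β) (hU : H695.UpM β a0) (ha : a0 < 136 * σ)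
    (hσ : 0 < σ) (hd : 0 ≤ d) (hw : 0 ≤ w) (hc : 2 * (d + w) + 150 * σ < 5 * e) {Q : ℝ}
    (hQ : 0 ≤ Q) :
    ∀ᶠ n : ℕ in atTop, AntiN n β → ∀ θ x s : ℝ, θ ≤ 1 → Reg n β e σ d w θ x s →
      ∀ (q : Par) (y l : ℝ) (S : CS n (β / √n) q.x), q.x = x → q.t1 = 1 - s →
      Tm q y l → x / 8 ≤ y → y ≤ x → l ≤ (n : ℝ) ^ (-(73 * σ)) * s → q.s2 < 1 →
      S.F = lz (β / √n) SkS → S.D = Dz (β / √n) →
      ∀ R : ℝ, 0 ≤ R → n + 32 * n * Gn n β x s / (β ^ 2 * (1 - q.s2)) ≤ R ^ 2 →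
      ∀ A C : (K4 (Pair n) → ℝ) → Matrix (Fin n) (Fin n) ℝ,
        (∀ w, A w = S.A q.s1 (P2 q w)) → (∀ w, C w = S.A q.s2 (P3 q w)) →
        Im (densG q (R1C.GTwo q y l S.F S.D) S.F) (fun w => bb R (A w) (C w)) ≤
          (n : ℝ) ^ (-Q) := by
  filter_upwards [pB_two hβ hU ha hσ hd hw hc (by linarith : 0 ≤ Q + 1), eventually_ge_atTop 2]
    with n h1 h2 hA θ x s hθ hR q y l S hx ht1 hT hy1 hy2 hl hs2 hF hD R hR0 hNb A C eA eC
  have hn2 : (2 : ℝ) ≤ n := by exact_mod_cast h2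
  have hn0 : (0 : ℝ) < n := by linarith
  have hs := stk3 q y l
  have hx0 : 0 < x := by rw [← hx]; exact S.x0
  have hs0 : 0 ≤ s := by have := hT.h1; have := hT.h2; linarith
  have hG := Gn_nonneg n β hx0 hs0
  have k1 : n + 32 * n * Gn n β x s / (β ^ 2 * (1 - q.s1)) ≤ R ^ 2 := by
    refine le_trans ?_ hNb
    have a1 : 0 < β ^ 2 * (1 - q.s2) := by
      have : 0 < 1 - q.s2 := by linarith
      positivity
    have a2 : β ^ 2 * (1 - q.s2) ≤ β ^ 2 * (1 - q.s1) :=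
      mul_le_mul_of_nonneg_left (by linarith [hT.h2]) (by positivity)
    have a3 : 32 * n * Gn n β x s / (β ^ 2 * (1 - q.s1)) ≤
        32 * n * Gn n β x s / (β ^ 2 * (1 - q.s2)) :=
      div_le_div_of_nonneg_left (by positivity) a1 a2
    linarith
  have k2 := h1 hA θ x s hθ hR q y l _ _ S hx ht1 hT hs hy1 hy2 hl hF hD q.s1 (R ^ 2) hT.h1
    (by linarith [hT.h2]) k1
  have k3 := h1 hA θ x s hθ hR q y l _ _ S hx ht1 hT hs hy1 hy2 hl hF hD q.s2 (R ^ 2)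
    (hT.h1.trans hT.h2) hs2 hNb
  refine (Im_bb_le hT hs hR0 eA eC).trans ((add_le_add k2 k3).trans ?_)
  have e1 : (n : ℝ) ^ (-Q) = n * (n : ℝ) ^ (-(Q + 1)) := by
    nth_rewrite 2 [← Real.rpow_one (n : ℝ)]
    rw [← Real.rpow_add hn0]
    congr 1
    ring
  rw [e1]
  have := Real.rpow_pos_of_pos hn0 (-(Q + 1))
  nlinarith

end Vale.Agent.P146.H698
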